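import Crest.Agent.X261.Fam.Defs

/-!
# Row 261, package FAM (helper77): the bound `Bd` on the fibre energy

* `n2_eq`, `n2_nonneg`, `n2_smul`, `n2_iso`, `sq_le_n2`, `n2_le_sq` : the density `n2`;
* `exists_lo`, `exists_hi` : comparison with the Euclidean norm on compact sets of a chart;
* `vol_aff` : the volume of an affine image;
* `bd_nat` : `Bd` is natural; `bd_real`, `bd_enn`, `bd_up` : bounds for the components.
-/

set_option autoImplicit false
set_option linter.unusedSectionVars false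

open Set Filter Topology MeasureTheory Matrix
open scoped ComplexConjugate ComplexOrder InnerProductSpace ContDiff ENNReal

namespace Crest.Agent.X261.Fam77

open Crest.Agent.R275.Geo Crest.Agent.R273.UCov_914 Crest.Agent.R273.Kah_333
open Crest.Agent.R273.Fock_243
open Crest.Agent.X261.Fam

noncomputable section

universe u

variable {n q : ℕ} {X : Type} [TopologicalSpace X] {A : Atl n X} {G : Type} [Group G]

section pw

variable {H : Type*} [NormedAddCommGroup H] [InnerProductSpace ℂ H] {g : Mt n}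

theorem n2_eq (hg : g.PosDef) (S : FI n → H) : n2 g S = g.det.re * en (Gam g⁻¹) S := by
  rw [n2, p2, det_ofReal hg, Complex.re_ofReal_mul, Complex.ofReal_re, en]

theorem n2_nonneg (hg : g.PosDef) (S : FI n → H) : 0 ≤ n2 g S := by
  rw [n2_eq hg]
  exact mul_nonneg (det_re_pos hg).le (en_nonneg (gam_psd hg.inv) S)




theorem sq_le_n2 (hg : g.PosDef) (S : FI n → H) (I : FI n) :
    g.det.re * ‖S I‖ ^ 2 ≤ (Gam g I I).re * n2 g S := by
  obtain ⟨N, μ, h⟩ := exists_NF hg (0 : Mr n 0)
  have h1 : S = ac (Gam N⁻¹) (ac (Gam N) S) := by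
    rw [← ac_mul, ← Gam_mul, Matrix.nonsing_inv_mul _ h.det_ne.isUnit, Gam_one, ac_one]
  have h2 := norm_ac_sq_le (Gam N⁻¹) (ac (Gam N) S) I
  rw [← h1, Gam_ct, ← Gam_mul, h.inv_mul_ct, ← en_gram, Gam_ct, ← Gam_mul, h.inv] at h2
  rw [n2_eq hg, mul_left_comm]
  exact mul_le_mul_of_nonneg_left h2 (det_re_pos hg).le

theorem eq_zero_of_n2 (hg : g.PosDef) {S : FI n → H} (h : n2 g S ≤ 0) : S = 0 := by
  funext I
  have h1 := sq_le_n2 hg S I
  rw [le_antisymm h (n2_nonneg hg S), mul_zero] at h1
  have h2 : ‖S I‖ ^ 2 ≤ 0 := by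
    by_contra h3
    exact absurd h1 (not_le.2 (mul_pos (det_re_pos hg) (not_le.1 h3)))
  simpa using le_antisymm h2 (sq_nonneg _)

theorem n2_le_sq {z : ℝ} (hz : ∀ I J, ‖g.det * Gam g⁻¹ I J‖ ≤ z) (S : FI n → H) :
    n2 g S ≤ z * Fintype.card (FI n) * sq S := by
  rw [n2, p2, ← ip_smul]
  exact (Complex.re_le_norm _).trans (norm_ip_le_ent (fun I J => by simpa using hz I J) S)

end pw

theorem cont_Gam (I J : FI n) : Continuous fun B : Mt n => Gam B I J := by
  unfold Gam
  split_ifs with h
  · exact (continuous_id.matrix_submatrix _ _).matrix_det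
  · exact continuous_const

/-- the metric read in a chart -/
def gr (K : Kah A) (i : A.ι) (z : Cn n) : Mt n := K.g i ((A.e i).symm z)

theorem gr_pos (K : Kah A) (i : A.ι) {z : Cn n} (hz : z ∈ (A.e i).target) : (gr K i z).PosDef :=
  K.pos i _ ((A.e i).map_target hz)

theorem cont_gr (K : Kah A) (i : A.ι) : ContinuousOn (gr K i) (A.e i).target :=
  continuousOn_pi.2 fun a => continuousOn_pi.2 fun b => (K.sm i a b).continuousOn

theorem cont_det (K : Kah A) (i : A.ι) :
    ContinuousOn (fun z => (gr K i z).det) (A.e i).target :=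
  (continuous_id.matrix_det).comp_continuousOn (cont_gr K i)

theorem cont_inv (K : Kah A) (i : A.ι) : ContinuousOn (fun z => (gr K i z)⁻¹) (A.e i).target := by
  have h : ContinuousOn (fun z => ((gr K i z).det)⁻¹ • (gr K i z).adjugate) (A.e i).target :=
    ((cont_det K i).inv₀ fun z hz => (gr_pos K i hz).det_pos.ne').smul
      ((continuous_id.matrix_adjugate).comp_continuousOn (cont_gr K i))
  refine h.congr fun z _ => ?_
  simp only [Matrix.inv_def, Ring.inverse_eq_inv']

theorem cont_p2 {H : Type*} [NormedAddCommGroup H] [InnerProductSpace ℂ H] (K : Kah A) (i : A.ι)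
    {U : Set (Cn n)} (hU : U ⊆ (A.e i).target) {S S' : Cn n → FI n → H}
    (hS : ∀ I, ContinuousOn (fun z => S z I) U) (hS' : ∀ I, ContinuousOn (fun z => S' z I) U) :
    ContinuousOn (fun z => p2 (K.g i ((A.e i).symm z)) (S z) (S' z)) U := by
  simp only [p2, ip_eq]
  refine ((cont_det K i).mono hU).mul (continuousOn_finsetSum _ fun I _ =>
    continuousOn_finsetSum _ fun J _ => ContinuousOn.mul ?_ (ContinuousOn.inner (𝕜 := ℂ) (hS I) (hS' J)))
  exact (cont_Gam I J).comp_continuousOn ((cont_inv K i).mono hU)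

theorem cont_n2 {H : Type*} [NormedAddCommGroup H] [InnerProductSpace ℂ H] (K : Kah A) (i : A.ι)
    {U : Set (Cn n)} (hU : U ⊆ (A.e i).target) {S : Cn n → FI n → H}
    (hS : ∀ I, ContinuousOn (fun z => S z I) U) :
    ContinuousOn (fun z => n2 (K.g i ((A.e i).symm z)) (S z)) U :=
  Complex.continuous_re.comp_continuousOn (cont_p2 K i hU hS hS)

/-- the components are bounded by the density -/
theorem exists_lo (K : Kah A) (i : A.ι) {N : Set (Cn n)} (hN : IsCompact N)
    (hNt : N ⊆ (A.e i).target) : ∃ C : ℝ, 0 < C ∧ ∀ z ∈ N,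
      ∀ {H : Type u} [NormedAddCommGroup H] [InnerProductSpace ℂ H] (S : FI n → H) (I : FI n),
        ‖S I‖ ^ 2 ≤ C * n2 (K.g i ((A.e i).symm z)) S := by
  have hc : ContinuousOn (fun z (I : FI n) => (Gam (gr K i z) I I).re / (gr K i z).det.re) N := by
    refine continuousOn_pi.2 fun I => ContinuousOn.div ?_ ?_ fun z hz =>
      (det_re_pos (gr_pos K i (hNt hz))).ne'
    · exact Complex.continuous_re.comp_continuousOn
        ((cont_Gam I I).comp_continuousOn ((cont_gr K i).mono hNt))
    · exact Complex.continuous_re.comp_continuousOn ((cont_det K i).mono hNt)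
  obtain ⟨C, hC⟩ := hN.exists_bound_of_continuousOn hc
  refine ⟨max C 1, lt_max_of_lt_right one_pos, fun z hz H _ _ S I => ?_⟩
  have hp := gr_pos K i (hNt hz)
  have h1 : (Gam (gr K i z) I I).re / (gr K i z).det.re ≤ max C 1 :=
    ((le_abs_self _).trans ((norm_le_pi_norm
      (fun I : FI n => (Gam (gr K i z) I I).re / (gr K i z).det.re) I).trans (hC z hz))).trans
      (le_max_left _ _)
  have h2 := sq_le_n2 hp S I
  have h3 := det_re_pos hp
  have h4 : ‖S I‖ ^ 2 ≤ (Gam (gr K i z) I I).re / (gr K i z).det.re * n2 (gr K i z) S := by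
    rw [div_mul_eq_mul_div, le_div_iff₀ h3, mul_comm]
    exact h2
  exact h4.trans (mul_le_mul_of_nonneg_right h1 (n2_nonneg hp S))

/-- the density is bounded by the components -/
theorem exists_hi (K : Kah A) (i : A.ι) {N : Set (Cn n)} (hN : IsCompact N)
    (hNt : N ⊆ (A.e i).target) : ∃ C : ℝ, 0 < C ∧ ∀ z ∈ N,
      ∀ {H : Type u} [NormedAddCommGroup H] [InnerProductSpace ℂ H] (S : FI n → H),
        n2 (K.g i ((A.e i).symm z)) S ≤ C * ∑ I, ‖S I‖ ^ 2 := by
  have hc : ContinuousOn (fun z (p : FI n × FI n) =>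
      (gr K i z).det * Gam (gr K i z)⁻¹ p.1 p.2) N :=
    continuousOn_pi.2 fun p => ((cont_det K i).mono hNt).mul
      ((cont_Gam p.1 p.2).comp_continuousOn ((cont_inv K i).mono hNt))
  obtain ⟨C, hC⟩ := hN.exists_bound_of_continuousOn hc
  refine ⟨max C 1 * Fintype.card (FI n), mul_pos (lt_max_of_lt_right one_pos)
    (Nat.cast_pos.2 Fintype.card_pos), fun z hz H _ _ S => ?_⟩
  refine n2_le_sq (g := gr K i z) (fun I J => ?_) S
  exact ((norm_le_pi_norm (fun p : FI n × FI n => (gr K i z).det * Gam (gr K i z)⁻¹ p.1 p.2)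
    (I, J)).trans (hC z hz)).trans (le_max_left _ _)

/-! ### affine images -/



variable {D : MonD A G} {K : Kah A} {a : D.cov G → Cn q}

theorem rd_deck {W : Type*} (f : D.cov G → W) (g : G) (i : A.ι) (v : G) (z : Cn n) :
    Fam.rd D f i (v * g⁻¹) z = f (g • D.pt i v ((A.e i).symm z)) := by
  rw [Fam.rd, D.deck_pt]



section bd

variable {H : Type*} [NormedAddCommGroup H] [InnerProductSpace ℂ H]
variable {S : A.ι → G → X → FI n → H} {E : ℝ}







end bd






end

end Crest.Agent.X261.Fam77
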