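import Crest.Agent.X261.Fam.Defs
import Crest.Agent.X261.Rel.Defs
import Crest.Agent.X261.Jet.TbA
import Crest.Agent.X261.Fam.GA
import Crest.Agent.X261.Fam77.Bd
import Crest.Agent.X261.Fam77.UqA

-- ▼ part X261/FamG/Lo
section

/-!
# X261, package FAM (helper3), file `Lo`: the lower bound of the fibre energy

* `Lo D K M a S E` : the fibre energy of `S` is at least `E`;
* `up_of`, `pos_of`, `low_of` : the fields `up` and `low` of `Rel.Min`.
-/

set_option autoImplicit false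
set_option linter.unusedSectionVars false

open Set Filter Topology MeasureTheory Matrix
open scoped ComplexConjugate ComplexOrder InnerProductSpace ContDiff ENNReal

namespace Crest.Agent.X261.FamG

open Crest.Agent.R275.Geo Crest.Agent.R273.UCov_914 Crest.Agent.R273.Kah_333
open Crest.Agent.R273.Fock_243
open Crest.Agent.X261.Fam

noncomputable section

variable {n q : ℕ} {X : Type} [TopologicalSpace X] {A : Atl n X} {G : Type} [Group G]
variable {H : Type*} [NormedAddCommGroup H] [InnerProductSpace ℂ H]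

/-- the fibre energy is at least `E` -/
def Lo (D : MonD A G) (K : Kah A) (M : Subgroup G) (a : D.cov G → Cn q)
    (S : A.ι → G → X → FI n → H) (E : ℝ) : Prop :=
  ∀ (T : Finset (A.ι × G)) (Kc : A.ι → Set (Cn n)),
    (∀ i, IsCompact (Kc i) ∧ Kc i ⊆ (A.e i).target) → ∀ ψ : Cn q → ℝ, Continuous ψ →
    HasCompactSupport ψ → (∀ t, 0 ≤ ψ t) → (∀ t, ψ t ≤ 1) →
    (∀ e, ψ (a e) ≠ 0 → ∃ m ∈ M, ∃ p ∈ T, ∃ z ∈ Kc p.1,
      m • e = D.pt p.1 p.2 ((A.e p.1).symm z)) →
    E * ∫ t, ψ t ≤ ∑ p ∈ T, ∫ z in Kc p.1,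
      n2 (K.g p.1 ((A.e p.1).symm z)) (S p.1 p.2 ((A.e p.1).symm z))

/-! ### pointwise comparison of `n2` with the coefficients -/

theorem cont_Gam : Continuous (Gam : Mt n → Matrix (FI n) (FI n) ℂ) := by
  refine continuous_pi fun S => continuous_pi fun T => ?_
  unfold Gam
  split_ifs
  · exact (continuous_id.matrix_submatrix _ _).matrix_det
  · exact continuous_const

theorem n2_eq {g : Mt n} (hg : g.PosDef) (S : FI n → H) : n2 g S = g.det.re * en (Gam g⁻¹) S := by
  rw [n2, p2, det_ofReal hg, Complex.re_ofReal_mul, Complex.ofReal_re, en]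

theorem n2_nonneg {g : Mt n} (hg : g.PosDef) (S : FI n → H) : 0 ≤ n2 g S := by
  rw [n2_eq hg]
  exact mul_nonneg (det_re_pos hg).le (en_nonneg (gam_psd hg.inv) S)

theorem sq_le_n2 {g : Mt n} (hg : g.PosDef) (S : FI n → H) (I : FI n) :
    g.det.re * ‖S I‖ ^ 2 ≤ (Gam g I I).re * n2 g S := by
  obtain ⟨N, μ, h⟩ := exists_NF hg (0 : Mr n 0)
  have h1 : S = ac (Gam N⁻¹) (ac (Gam N) S) := by
    rw [← ac_mul, ← Gam_mul, Matrix.nonsing_inv_mul _ h.det_ne.isUnit, Gam_one, ac_one]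
  have h2 := norm_ac_sq_le (Gam N⁻¹) (ac (Gam N) S) I
  rw [← h1, Gam_ct, ← Gam_mul, h.inv_mul_ct, ← en_gram, Gam_ct, ← Gam_mul, h.inv] at h2
  rw [n2_eq hg, mul_left_comm]
  exact mul_le_mul_of_nonneg_left h2 (det_re_pos hg).le

theorem n2_le {g : Mt n} {z : ℝ} (hz : ∀ I J, ‖(g.det • Gam g⁻¹) I J‖ ≤ z) (S : FI n → H) :
    n2 g S ≤ z * Fintype.card (FI n) * sq S := by
  rw [n2, p2, ← ip_smul]
  exact (Complex.re_le_norm _).trans (norm_ip_le_ent hz S)

/-- the metric in a chart -/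
def gz (K : Kah A) (i : A.ι) (z : Cn n) : Mt n := K.g i ((A.e i).symm z)

theorem gz_pos (K : Kah A) {i : A.ι} {z : Cn n} (hz : z ∈ (A.e i).target) : (gz K i z).PosDef :=
  K.pos i _ ((A.e i).map_target hz)

theorem cont_gz (K : Kah A) (i : A.ι) : ContinuousOn (gz K i) (A.e i).target :=
  continuousOn_pi.2 fun a => continuousOn_pi.2 fun b => (K.sm i a b).continuousOn

theorem cont_det (K : Kah A) (i : A.ι) : ContinuousOn (fun z => (gz K i z).det) (A.e i).target :=
  (continuous_id.matrix_det).comp_continuousOn (cont_gz K i)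

theorem cont_inv (K : Kah A) (i : A.ι) : ContinuousOn (fun z => (gz K i z)⁻¹) (A.e i).target := by
  intro z hz
  refine ContinuousAt.comp_continuousWithinAt (continuousAt_matrix_inv _ ?_) (cont_gz K i z hz)
  have : (gz K i z).det ≠ 0 := (gz_pos K hz).det_pos.ne'
  simpa only [Ring.inverse_eq_inv'] using continuousAt_inv₀ this

theorem cont_ip {ι : Type*} [Fintype ι] {Y : Type*} [TopologicalSpace Y] {U : Set Y}
    {W : Y → Matrix ι ι ℂ} {B C : Y → ι → H} (hW : ContinuousOn W U) (hB : ContinuousOn B U)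
    (hC : ContinuousOn C U) : ContinuousOn (fun z => ip (W z) (B z) (C z)) U := by
  simp only [ip_eq]
  refine continuousOn_finsetSum _ fun r _ => continuousOn_finsetSum _ fun p _ => ?_
  exact (continuousOn_pi.1 (continuousOn_pi.1 hW r) p).mul
    (ContinuousOn.inner (𝕜 := ℂ) (continuousOn_pi.1 hB r) (continuousOn_pi.1 hC p))

theorem cont_n2 (K : Kah A) (i : A.ι) {S : Cn n → FI n → H} {U : Set (Cn n)}
    (hU : U ⊆ (A.e i).target) (hS : ContinuousOn S U) :
    ContinuousOn (fun z => n2 (gz K i z) (S z)) U :=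
  Complex.continuous_re.comp_continuousOn (((cont_det K i).mono hU).mul
    (cont_ip (cont_Gam.comp_continuousOn ((cont_inv K i).mono hU)) hS hS))

theorem exists_lo (K : Kah A) (i : A.ι) {V : Set (Cn n)} (hV : IsCompact V)
    (hs : V ⊆ (A.e i).target) :
    ∃ C : ℝ, 0 < C ∧ ∀ z ∈ V, ∀ (S : FI n → H) I, ‖S I‖ ^ 2 ≤ C * n2 (gz K i z) S := by
  have h1 : ContinuousOn (fun z => fun I => Gam (gz K i z) I I / (gz K i z).det) V :=
    continuousOn_pi.2 fun I => ((continuousOn_pi.1 (continuousOn_pi.1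
      (cont_Gam.comp_continuousOn ((cont_gz K i).mono hs)) I) I).div ((cont_det K i).mono hs)
      fun z hz => (gz_pos K (hs hz)).det_pos.ne')
  obtain ⟨C, hC⟩ := hV.exists_bound_of_continuousOn h1
  refine ⟨|C| + 1, by positivity, fun z hz S I => ?_⟩
  have hp := gz_pos K (hs hz)
  have hd := det_re_pos hp
  have h2 := (norm_le_pi_norm _ I).trans (hC z hz)
  rw [norm_div, det_ofReal hp, Complex.norm_real, Real.norm_of_nonneg hd.le, div_le_iff₀ hd] at h2
  have h3 := sq_le_n2 hp S I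
  have h4 := n2_nonneg hp S
  have h5 : (Gam (gz K i z) I I).re ≤ (|C| + 1) * (gz K i z).det.re :=
    (Complex.re_le_norm _).trans (h2.trans (by gcongr; linarith [le_abs_self C]))
  refine le_of_mul_le_mul_left (h3.trans ?_) hd
  calc _ ≤ (|C| + 1) * (gz K i z).det.re * n2 (gz K i z) S := by gcongr
    _ = _ := by ring

theorem exists_hi (K : Kah A) (i : A.ι) {V : Set (Cn n)} (hV : IsCompact V)
    (hs : V ⊆ (A.e i).target) :
    ∃ C : ℝ, 0 < C ∧ ∀ z ∈ V, ∀ S : FI n → H, n2 (gz K i z) S ≤ C * sq S := by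
  have h1 : ContinuousOn (fun z => fun p : FI n × FI n =>
      ((gz K i z).det • Gam (gz K i z)⁻¹) p.1 p.2) V :=
    continuousOn_pi.2 fun p => ((cont_det K i).mono hs).mul (continuousOn_pi.1 (continuousOn_pi.1
      (cont_Gam.comp_continuousOn ((cont_inv K i).mono hs)) p.1) p.2)
  obtain ⟨C, hC⟩ := hV.exists_bound_of_continuousOn h1
  refine ⟨|C| * Fintype.card (FI n) + 1, by positivity, fun z hz S => ?_⟩
  have h2 := n2_le (z := |C|) (g := gz K i z) (fun I J =>
    ((norm_le_pi_norm _ (I, J)).trans (hC z hz)).trans (le_abs_self C)) S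
  nlinarith [sq_nonneg' S]

/-! ### integrals -/

theorem lint_sq {f : Cn n → H} {Kc : Set (Cn n)} (hK : IsCompact Kc) (hf : ContinuousOn f Kc) :
    ∫⁻ z in Kc, ‖f z‖ₑ ^ 2 = ENNReal.ofReal (∫ z in Kc, ‖f z‖ ^ 2) := by
  rw [ofReal_integral_eq_lintegral_ofReal (f := fun z => ‖f z‖ ^ 2)
    ((hf.norm.pow 2).integrableOn_compact hK) (Eventually.of_forall fun z => sq_nonneg _)]
  refine lintegral_congr fun z => ?_
  rw [ENNReal.ofReal_pow (norm_nonneg _), ofReal_norm]

variable {D : MonD A G} {K : Kah A} {M : Subgroup G} {a : D.cov G → Cn q}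
  {S : A.ι → G → X → FI n → H} {E : ℝ}

/-- holomorphy in the charts -/
def Hl (A : Atl n X) (S : A.ι → G → X → FI n → H) : Prop :=
  ∀ i v I, DifferentiableOn ℂ (fun z => S i v ((A.e i).symm z) I) (A.e i).target

theorem Hl.cont (h : Hl A S) (i : A.ι) (v : G) :
    ContinuousOn (fun z => S i v ((A.e i).symm z)) (A.e i).target :=
  continuousOn_pi.2 fun I => (h i v I).continuousOn

theorem cont_rd (hd : Dat D M a) (i : A.ι) (v : G) : ContinuousOn (rd D a i v) (A.e i).target := by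
  have := (hd.hol (i, v)).continuousOn
  rwa [preimage_univ, inter_univ] at this

theorem bd_sq (h : Hl A S) (hb : Bd D K a S E) (i : A.ι) {V : Set (Cn n)}
    (hV : IsCompact V) (hs : V ⊆ (A.e i).target) : ∃ C : ℝ, 0 < C ∧ ∀ v, ∀ Kc ⊆ V, IsCompact Kc →
      ∀ I, ∫ z in Kc, ‖S i v ((A.e i).symm z) I‖ ^ 2 ≤
        C * (E * (volume (rd D a i v '' Kc)).toReal) := by
  obtain ⟨C, h0, hC⟩ := exists_lo (H := H) K i hV hs
  refine ⟨C, h0, fun v Kc h1 h2 I => ?_⟩
  have h3 := h1.trans hs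
  refine le_trans ?_ (mul_le_mul_of_nonneg_left (hb i v Kc h3 h2) h0.le)
  rw [← integral_const_mul]
  refine setIntegral_mono_on
    ((((h i v I).continuousOn.mono h3).norm.pow 2).integrableOn_compact h2)
    (((cont_n2 K i h3 ((h.cont i v).mono h3)).integrableOn_compact h2).const_mul C)
    h2.measurableSet fun z hz => hC z (h1 hz) _ I

/-- the field `up` of `Rel.Min` -/
theorem up_of (h : Hl A S) (hE : 0 ≤ E) (hb : Bd D K a S E) (i : A.ι) (z₀ : Cn n)
    (hz : z₀ ∈ (A.e i).target) : ∃ V ∈ 𝓝 z₀, ∃ C : ℝ≥0∞, C < ⊤ ∧ ∀ v, ∀ Kc ⊆ V, IsCompact Kc →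
    ∀ I, ∫⁻ z in Kc, ‖S i v ((A.e i).symm z) I‖ₑ ^ 2 ≤ C * volume (rd D a i v '' Kc) := by
  obtain ⟨V, hV, hs, hc⟩ := local_compact_nhds ((A.e i).open_target.mem_nhds hz)
  obtain ⟨C, h0, hC⟩ := bd_sq h hb i hc hs
  refine ⟨V, hV, ENNReal.ofReal (C * E), ENNReal.ofReal_lt_top, fun v Kc h1 h2 I => ?_⟩
  rw [lint_sq h2 ((h i v I).continuousOn.mono (h1.trans hs))]
  refine (ENNReal.ofReal_le_ofReal (hC v Kc h1 h2 I)).trans ?_
  rw [← mul_assoc, ENNReal.ofReal_mul (mul_nonneg h0.le hE)]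
  exact mul_le_mul_right ENNReal.ofReal_toReal_le _

theorem pos_of (h : Hl A S) (hE : 0 ≤ E) (hb : Bd D K a S E)
    (hne : ∃ i v, ∃ x ∈ (A.e i).source, S i v x ≠ 0) : 0 < E := by
  refine hE.lt_of_ne fun h0 => ?_
  obtain ⟨i, v, x, hx, h1⟩ := hne
  obtain ⟨I, hI⟩ := Function.ne_iff.1 h1
  obtain ⟨V, hV, hs, hc⟩ := local_compact_nhds
    ((A.e i).open_target.mem_nhds ((A.e i).map_source hx))
  obtain ⟨C, -, hC⟩ := bd_sq h hb i hc hs
  have h2 := hC v V subset_rfl hc I
  rw [← h0, zero_mul, mul_zero] at h2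
  have h3 : ContinuousOn (fun z => ‖S i v ((A.e i).symm z) I‖ ^ 2) V :=
    ((h i v I).continuousOn.mono hs).norm.pow 2
  have h4 := (setIntegral_eq_zero_iff_of_nonneg_ae (Eventually.of_forall fun z => sq_nonneg _)
    (h3.integrableOn_compact hc)).1 (le_antisymm h2 (integral_nonneg fun z => sq_nonneg _))
  have h5 := Measure.eqOn_open_of_ae_eq (μ := volume)
    (ae_restrict_of_ae_restrict_of_subset interior_subset h4) isOpen_interior
    (h3.mono interior_subset) continuousOn_const (mem_interior_iff_mem_nhds.2 hV)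
  simp only [(A.e i).left_inv hx, Pi.zero_apply] at h5
  exact hI (by simpa using h5)

/-- the field `low` of `Rel.Min` -/
theorem low_of [T2Space X] [CompactSpace X] [Finite A.ι] [hM : M.Normal] (hd : Dat D M a)
    (hφ : ∀ g : G, ∃ φ : Cn q ≃ₜ Cn q, MeasurePreserving φ volume volume ∧
      ∀ e, a (g • e) = φ (a e))
    (h : Hl A S) (hE : 0 < E) (hl : Lo D K M a S E) :
    ∃ (T : Finset (A.ι × G)) (Kc : A.ι → Set (Cn n)) (c : ℝ≥0∞), 0 < c ∧
      (∀ i, IsCompact (Kc i) ∧ Kc i ⊆ (A.e i).target) ∧ ∀ g : G,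
        c ≤ ∑ p ∈ T, ∑ I, ∫⁻ z in Kc p.1, ‖S p.1 (p.2 * g) ((A.e p.1).symm z) I‖ₑ ^ 2 := by
  classical
  have := Fintype.ofFinite A.ι
  obtain ⟨C0, hC0, hp⟩ := hd.prop 1
  obtain ⟨L, l1, l2, l3⟩ := MonD.exists_shrink A
  have hf := Cov.B.finite_co D hC0
  set T : Finset (A.ι × G) := Finset.univ ×ˢ hf.toFinset with hT
  have hK : ∀ i, IsCompact (A.e i '' L i) ∧ A.e i '' L i ⊆ (A.e i).target := fun i =>
    ⟨(l1 i).image_of_continuousOn ((A.e i).continuousOn.mono (l2 i)),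
      image_subset_iff.2 fun x hx => (A.e i).map_source (l2 i hx)⟩
  choose C hC1 hC2 using fun i => exists_hi (H := H) K i (hK i).1 (hK i).2
  set C1 : ℝ := ∑ i, C i + 1 with hC1'
  have hs0 : 0 ≤ ∑ i, C i := Finset.sum_nonneg fun i _ => (hC1 i).le
  have hC3 : ∀ i, C i ≤ C1 := fun i => by
    have := Finset.single_le_sum (f := C) (fun j _ => (hC1 j).le) (Finset.mem_univ i)
    linarith
  have hC4 : 0 < C1 := by linarith
  let β : ContDiffBump (0 : Cn q) := ⟨1 / 2, 1, by norm_num, by norm_num⟩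
  set b : ℝ := ∫ t, β t with hb
  have hb0 : 0 < b := β.integral_pos
  refine ⟨T, fun i => A.e i '' L i, ENNReal.ofReal (E * b / C1),
    ENNReal.ofReal_pos.2 (by positivity), hK, fun g => ?_⟩
  obtain ⟨φ, hφ1, hφ2⟩ := hφ g
  let em : A.ι × G ↪ A.ι × G := ⟨fun p => (p.1, p.2 * g), fun p p' hpp =>
    Prod.ext (congrArg Prod.fst hpp :) (mul_right_cancel (congrArg Prod.snd hpp :))⟩
  have h1 := hl (T.map em) (fun i => A.e i '' L i) hK (fun t => β (φ t))
    (β.continuous.comp φ.continuous) (β.hasCompactSupport.comp_homeomorph φ)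
    (fun t => β.nonneg) (fun t => β.le_one) fun e he => by
      obtain ⟨m, hm, hme⟩ := hp (g • e) (by
        rw [hφ2]
        have h3 : φ (a e) ∈ Function.support β := he
        rw [β.support_eq] at h3
        exact (mem_ball_zero_iff.1 h3).le)
      obtain ⟨i, hi⟩ := mem_iUnion.1 (l3 ▸ mem_univ (D.pr (m • g • e)) : D.pr _ ∈ ⋃ i, L i)
      refine ⟨g⁻¹ * m * g, by simpa using hM.conj_mem m hm g⁻¹, em (i, D.co i (m • g • e)),
        Finset.mem_map_of_mem _ ?_, _, ⟨_, hi, rfl⟩, ?_⟩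
      · exact Finset.mem_product.2 ⟨Finset.mem_univ _, hf.mem_toFinset.2 ⟨_, hme, i, l2 i hi, rfl⟩⟩
      · change _ = D.pt i (D.co i (m • g • e) * g) ((A.e i).symm (A.e i _))
        rw [(A.e i).left_inv (l2 i hi), mul_smul, mul_smul]
        conv_lhs => rw [← D.pt_co (l2 i hi), D.deck_pt, inv_inv]
  rw [hφ1.integral_comp φ.measurableEmbedding, Finset.sum_map] at h1
  have h2 : E * b / C1 ≤ ∑ p ∈ T, ∑ I, ∫ z in A.e p.1 '' L p.1,
      ‖S p.1 (p.2 * g) ((A.e p.1).symm z) I‖ ^ 2 := by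
    rw [div_le_iff₀' hC4, Finset.mul_sum]
    refine h1.trans (Finset.sum_le_sum fun p _ => ?_)
    have hi : ∀ I, IntegrableOn (fun z => ‖S p.1 (p.2 * g) ((A.e p.1).symm z) I‖ ^ 2)
        (A.e p.1 '' L p.1) := fun I =>
      (((h p.1 _ I).continuousOn.mono (hK _).2).norm.pow 2).integrableOn_compact (hK _).1
    rw [← integral_finsetSum _ fun I _ => hi I, ← integral_const_mul]
    refine setIntegral_mono_on ((cont_n2 K p.1 (hK _).2
      ((h.cont p.1 _).mono (hK _).2)).integrableOn_compact (hK _).1)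
      ((integrable_finsetSum _ fun I _ => hi I).const_mul C1) (hK _).1.measurableSet fun z hz => ?_
    exact (hC2 p.1 z hz _).trans (mul_le_mul_of_nonneg_right (hC3 _) (sq_nonneg' _))
  refine (ENNReal.ofReal_le_ofReal h2).trans (le_of_eq ?_)
  rw [ENNReal.ofReal_sum_of_nonneg fun p _ => Finset.sum_nonneg fun I _ =>
    integral_nonneg fun z => sq_nonneg _]
  refine Finset.sum_congr rfl fun p _ => ?_
  rw [ENNReal.ofReal_sum_of_nonneg fun I _ => integral_nonneg fun z => sq_nonneg _]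
  exact Finset.sum_congr rfl fun I _ =>
    (lint_sq (hK _).1 ((h p.1 _ I).continuousOn.mono (hK _).2)).symm

end

end Crest.Agent.X261.FamG
end

-- ▼ part X261/Fam20/A
section

/-!
# X261, package FAM, part POST (helper20), file `A`: flat calculus and `L²` limits

* `dj_smul`, `dj_clm`, `dj_comm`, `int_dj` : calculus of `∂_a`;
* `Wd g`, `d_Wd` : the form `∂g_1 ∧ … ∧ ∂g_r` is `∂`-closed;
* `exists_sub`   : an `L¹`-null sequence has an a.e. null subsequence;
* `tend_pair`    : pairing with a test function is continuous for local `L²` convergence;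
* `zero_of_test` : a continuous function orthogonal to the test functions vanishes.
-/

set_option autoImplicit false
set_option linter.unusedSectionVars false
set_option linter.dupNamespace false

open Set Filter Topology Complex Matrix MeasureTheory
open scoped ENNReal InnerProductSpace ContDiff

namespace Crest.Agent.X261.Fam20

open Crest.Agent.R275.Geo
open Crest.Agent.R275.OmT75 (dj dj_congr dj_sum dj_pi dj_contDiffOn)
open Crest.Agent.R273.Fock_243 (FI Gam eW iW ep eW_anti eW_sq eW_eq_sum)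
open Crest.Agent.X261.Top (wdg)
open Crest.Agent.X261.Jet.Tb (wdg_cons wdg_nil)

noncomputable section

variable {n : ℕ} {W W' : Type*} [NormedAddCommGroup W] [NormedSpace ℂ W]
  [NormedAddCommGroup W'] [NormedSpace ℂ W']

theorem dj_smul {a : Fin n} {c : Cn n → ℂ} {f : Cn n → W} {z : Cn n}
    (hc : DifferentiableAt ℝ c z) (hf : DifferentiableAt ℝ f z) :
    dj a (fun w => c w • f w) z = dj a c z • f z + c z • dj a f z := by
  have h : fderiv ℝ (fun w => c w • f w) z =
      c z • fderiv ℝ f z + (fderiv ℝ c z).smulRight (f z) := fderiv_fun_smul hc hf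
  simp only [dj, h, _root_.add_apply, _root_.smul_apply,
    ContinuousLinearMap.smulRight_apply, smul_eq_mul]
  module

theorem dj_clm {a : Fin n} (L : W →L[ℂ] W') {f : Cn n → W} {z : Cn n}
    (hf : DifferentiableAt ℝ f z) : dj a (fun w => L (f w)) z = L (dj a f z) := by
  have h : fderiv ℝ (fun w => L (f w)) z = (L.restrictScalars ℝ).comp (fderiv ℝ f z) :=
    ((L.restrictScalars ℝ).hasFDerivAt.comp z hf.hasFDerivAt).fderiv
  simp only [dj, h, ContinuousLinearMap.comp_apply, ContinuousLinearMap.coe_restrictScalars',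
    map_smul, map_sub]


theorem dj_add_const {a : Fin n} (f : Cn n → W) (b : W) (z : Cn n) :
    dj a (fun w => f w + b) z = dj a f z := by
  simp only [dj, fderiv_add_const]

theorem dj_const {a : Fin n} (b : W) (z : Cn n) : dj a (fun _ => b) z = 0 := by
  simp [dj]

theorem fderiv_dj {f : Cn n → W} {z : Cn n} (h : ContDiffAt ℝ ∞ f z) (c : Fin n) (u : Cn n) :
    fderiv ℝ (dj c f) z u = (1 / 2 : ℂ) • (fderiv ℝ (fderiv ℝ f) z u (EuclideanSpace.single c 1) -
      I • fderiv ℝ (fderiv ℝ f) z u (EuclideanSpace.single c I)) := by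
  have h1 : DifferentiableAt ℝ (fderiv ℝ f) z :=
    (h.fderiv_right (m := 1) (WithTop.coe_le_coe.2 le_top : ((2 : ℕ∞) : WithTop ℕ∞) ≤ (⊤ : ℕ∞))).differentiableAt (by simp)
  have h2 : ∀ v : Cn n, HasFDerivAt (fun w => fderiv ℝ f w v)
      ((ContinuousLinearMap.apply ℝ W v).comp (fderiv ℝ (fderiv ℝ f) z)) z := fun v =>
    (ContinuousLinearMap.apply ℝ W v).hasFDerivAt.comp z h1.hasFDerivAt
  have h3 := ((h2 (EuclideanSpace.single c 1)).sub
    ((h2 (EuclideanSpace.single c I)).const_smul I)).const_smul (1 / 2 : ℂ)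
  have h4 : fderiv ℝ (dj c f) z = _ := h3.fderiv
  rw [h4]
  rfl

theorem dj_comm {f : Cn n → W} {z : Cn n} (h : ContDiffAt ℝ ∞ f z) (b c : Fin n) :
    dj b (dj c f) z = dj c (dj b f) z := by
  have hs : IsSymmSndFDerivAt ℝ f z := h.isSymmSndFDerivAt (by
    simp only [minSmoothness_of_isRCLikeNormedField]
    exact (WithTop.coe_le_coe.2 le_top : ((2 : ℕ∞) : WithTop ℕ∞) ≤ (⊤ : ℕ∞)))
  rw [dj, dj, fderiv_dj h, fderiv_dj h, fderiv_dj h, fderiv_dj h,
    hs (EuclideanSpace.single b 1) (EuclideanSpace.single c 1),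
    hs (EuclideanSpace.single b 1) (EuclideanSpace.single c I),
    hs (EuclideanSpace.single b I) (EuclideanSpace.single c 1),
    hs (EuclideanSpace.single b I) (EuclideanSpace.single c I)]
  module

/-- `∂g_1 ∧ … ∧ ∂g_r` -/
def Wd {r : ℕ} (g : Fin r → Cn n → ℂ) (z : Cn n) : FI n → ℂ := wdg fun k c => dj c (g k) z

/-- a matrix as a continuous linear map -/
def mL (B : Matrix (FI n) (FI n) ℂ) : (FI n → ℂ) →L[ℂ] (FI n → ℂ) :=
  LinearMap.toContinuousLinearMap (Matrix.mulVecLin B)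


theorem eW_mulVec (a : Fin n → ℂ) (τ : FI n → ℂ) : eW a *ᵥ τ = ∑ c, a c • (eW (ep c) *ᵥ τ) := by
  rw [eW_eq_sum, Matrix.sum_mulVec]
  simp only [Matrix.smul_mulVec]

theorem Wd_succ {r : ℕ} (g : Fin (r + 1) → Cn n → ℂ) :
    Wd g = fun z => ∑ c, dj c (g 0) z • mL (eW (ep c)) (Wd (fun k => g k.succ) z) := by
  funext z
  rw [Wd, wdg_cons, eW_mulVec]
  rfl

theorem Wd_smooth {O : Set (Cn n)} (hO : IsOpen O) :
    ∀ {r : ℕ} {g : Fin r → Cn n → ℂ}, (∀ k, ContDiffOn ℝ ∞ (g k) O) → ContDiffOn ℝ ∞ (Wd g) O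
  | 0, g, _ => by
    have : Wd g = fun _ => Pi.single ∅ 1 := funext fun z => wdg_nil _
    rw [this]
    exact contDiffOn_const
  | r + 1, g, hg => by
    rw [Wd_succ]
    refine ContDiffOn.sum fun c _ => (dj_contDiffOn hO (hg 0)).smul ?_
    exact ((mL (eW (ep c))).restrictScalars ℝ).contDiff.comp_contDiffOn
      (Wd_smooth hO fun k => hg k.succ)

theorem sym_anti {s : Fin n → Fin n → ℂ} (hs : ∀ b c, s b c = s c b) (τ : FI n → ℂ) :
    ∑ b, ∑ c, s b c • (eW (ep b) *ᵥ (eW (ep c) *ᵥ τ)) = 0 := by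
  set T := ∑ b, ∑ c, s b c • (eW (ep b) *ᵥ (eW (ep c) *ᵥ τ)) with hT
  have h1 : T = ∑ b, ∑ c, s b c • (eW (ep c) *ᵥ (eW (ep b) *ᵥ τ)) := by
    rw [hT, Finset.sum_comm]
    exact Finset.sum_congr rfl fun b _ => Finset.sum_congr rfl fun c _ => by rw [hs]
  have h2 : T + T = 0 := by
    nth_rewrite 2 [h1]
    rw [hT, ← Finset.sum_add_distrib]
    refine Finset.sum_eq_zero fun b _ => ?_
    rw [← Finset.sum_add_distrib]
    refine Finset.sum_eq_zero fun c _ => ?_
    rw [← smul_add, Matrix.mulVec_mulVec, Matrix.mulVec_mulVec, ← Matrix.add_mulVec, eW_anti,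
      Matrix.zero_mulVec, smul_zero]
  rw [← two_smul ℂ] at h2
  exact (smul_eq_zero.1 h2).resolve_left two_ne_zero

theorem eW_swap (a b : Fin n → ℂ) (τ : FI n → ℂ) : eW a *ᵥ (eW b *ᵥ τ) = -(eW b *ᵥ (eW a *ᵥ τ)) := by
  rw [eq_neg_iff_add_eq_zero, Matrix.mulVec_mulVec, Matrix.mulVec_mulVec, ← Matrix.add_mulVec,
    eW_anti, Matrix.zero_mulVec]

/-- `∂ (∂g_1 ∧ … ∧ ∂g_r) = 0` -/
theorem d_Wd {O : Set (Cn n)} (hO : IsOpen O) {z : Cn n} (hz : z ∈ O) :
    ∀ {r : ℕ} {g : Fin r → Cn n → ℂ}, (∀ k, ContDiffOn ℝ ∞ (g k) O) →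
      ∑ b, eW (ep b) *ᵥ dj b (Wd g) z = 0
  | 0, g, _ => by
    have : Wd g = fun _ => Pi.single ∅ 1 := funext fun z => wdg_nil _
    rw [this]
    simp [dj_const]
  | r + 1, g, hg => by
    have ih := d_Wd hO hz (g := fun k => g k.succ) fun k => hg k.succ
    set V := Wd fun k : Fin r => g k.succ with hV
    have hVd : DifferentiableAt ℝ V z :=
      ((Wd_smooth hO fun k => hg k.succ).contDiffAt (hO.mem_nhds hz)).differentiableAt (by simp)
    have hg0 : ∀ c, DifferentiableAt ℝ (dj c (g 0)) z := fun c =>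
      ((dj_contDiffOn hO (hg 0)).contDiffAt (hO.mem_nhds hz)).differentiableAt (by simp)
    have hL : ∀ c : Fin n, DifferentiableAt ℝ (fun w => mL (eW (ep c)) (V w)) z := fun c =>
      ((mL (eW (ep c))).restrictScalars ℝ).differentiableAt.comp z hVd
    have h1 : ∀ b, dj b (Wd g) z = ∑ c, (dj b (dj c (g 0)) z • (eW (ep c) *ᵥ V z) +
        dj c (g 0) z • (eW (ep c) *ᵥ dj b V z)) := fun b => by
      rw [Wd_succ, dj_sum (f := fun c w => dj c (g 0) w • mL (eW (ep c)) (V w))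
        fun c _ => (hg0 c).smul (hL c)]
      refine Finset.sum_congr rfl fun c _ => ?_
      rw [dj_smul (hg0 c) (hL c), dj_clm _ hVd]
      rfl
    simp only [h1, Matrix.mulVec_sum, Matrix.mulVec_add, Matrix.mulVec_smul,
      Finset.sum_add_distrib]
    rw [sym_anti (s := fun b c => dj b (dj c (g 0)) z)
      (fun b c => dj_comm ((hg 0).contDiffAt (hO.mem_nhds hz)) b c), zero_add, Finset.sum_comm]
    refine Finset.sum_eq_zero fun c _ => ?_
    rw [← Finset.smul_sum]
    have h2 : ∑ b, eW (ep b) *ᵥ (eW (ep c) *ᵥ dj b V z) = 0 := by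
      simp only [fun b => eW_swap (ep b) (ep c) (dj b V z), Finset.sum_neg_distrib,
        ← Matrix.mulVec_sum, ih, Matrix.mulVec_zero, neg_zero]
    rw [h2, smul_zero]

/-! ### limits -/

theorem exists_sub {α : Type*} [MeasurableSpace α] {μ : Measure α} {F : ℕ → α → ℝ≥0∞}
    (hF : ∀ k, AEMeasurable (F k) μ) (h : Tendsto (fun k => ∫⁻ x, F k x ∂μ) atTop (𝓝 0)) :
    ∃ φ : ℕ → ℕ, StrictMono φ ∧ ∀ᵐ x ∂μ, Tendsto (fun k => F (φ k) x) atTop (𝓝 0) := by
  have h1 : ∀ k : ℕ, ∀ᶠ j in atTop, ∫⁻ x, F j x ∂μ ≤ (2⁻¹ : ℝ≥0∞) ^ k := fun k =>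
    h.eventually (ge_mem_nhds (ENNReal.pow_pos (by simp) k))
  obtain ⟨φ, hφ, h2⟩ := extraction_forall_of_eventually h1
  refine ⟨φ, hφ, ?_⟩
  have h3 : ∫⁻ x, ∑' k, F (φ k) x ∂μ ≠ ⊤ := by
    rw [lintegral_tsum fun k => hF (φ k)]
    refine ne_top_of_le_ne_top ?_ (ENNReal.tsum_le_tsum h2)
    rw [ENNReal.tsum_geometric_two]
    simp
  filter_upwards [ae_lt_top' (AEMeasurable.tsum fun k => hF (φ k)) h3] with x hx
  exact ENNReal.tendsto_atTop_zero_of_tsum_ne_top hx.ne

theorem tend_of_sq {u : ℕ → W} {s : W} (h : Tendsto (fun k => ‖u k - s‖ₑ ^ 2) atTop (𝓝 0)) :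
    Tendsto u atTop (𝓝 s) := by
  have h1 := (ENNReal.continuous_rpow_const (y := (1 / 2 : ℝ))).tendsto 0 |>.comp h
  rw [ENNReal.zero_rpow_of_pos (by norm_num)] at h1
  rw [tendsto_iff_edist_tendsto_0]
  refine h1.congr fun k => ?_
  simp only [Function.comp, edist_eq_enorm_sub]
  rw [← ENNReal.rpow_natCast, ← ENNReal.rpow_mul]
  norm_num

/-- Cauchy–Schwarz -/
theorem cs {α : Type*} [MeasurableSpace α] (μ : Measure α) {a : α → ℂ} {b : α → W}
    (ha : AEStronglyMeasurable a μ) (hb : AEStronglyMeasurable b μ) :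
    ∫⁻ x, ‖a x • b x‖ₑ ∂μ ≤ (∫⁻ x, ‖a x‖ₑ ^ 2 ∂μ) ^ (1 / 2 : ℝ) *
      (∫⁻ x, ‖b x‖ₑ ^ 2 ∂μ) ^ (1 / 2 : ℝ) := by
  have h := ENNReal.lintegral_mul_le_Lp_mul_Lq μ Real.HolderConjugate.two_two ha.enorm hb.enorm
  simp only [Pi.mul_apply] at h
  simp only [enorm_smul]
  refine h.trans (le_of_eq ?_)
  simp only [← ENNReal.rpow_natCast]
  norm_num

theorem smul_cont {O : Set (Cn n)} (hO : IsOpen O) {g : Cn n → W} {ψ : Cn n → ℂ}
    (hg : ContinuousOn g O) (hψ : Continuous ψ) (hs : tsupport ψ ⊆ O) :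
    Continuous fun x => ψ x • g x := by
  rw [continuous_iff_continuousAt]
  intro x
  by_cases hx : x ∈ O
  · exact hψ.continuousAt.smul (hg.continuousAt (hO.mem_nhds hx))
  · have hx' : x ∉ tsupport ψ := fun h => hx (hs h)
    have h1 : (fun x => ψ x • g x) =ᶠ[𝓝 x] fun _ => 0 := by
      filter_upwards [(isClosed_tsupport ψ).isOpen_compl.mem_nhds hx'] with y hy
      rw [image_eq_zero_of_notMem_tsupport hy, zero_smul]
    exact (continuousAt_const).congr h1.symm

theorem smul_int {O : Set (Cn n)} (hO : IsOpen O) {g : Cn n → W} {ψ : Cn n → ℂ}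
    (hg : ContinuousOn g O) (hψ : Continuous ψ) (hc : HasCompactSupport ψ) (hs : tsupport ψ ⊆ O) :
    Integrable fun x => ψ x • g x :=
  (smul_cont hO hg hψ hs).integrable_of_hasCompactSupport hc.smul_right

theorem sq_lt_top {K : Set (Cn n)} (hK : IsCompact K) {g : Cn n → W} (hg : ContinuousOn g K) :
    ∫⁻ z in K, ‖g z‖ₑ ^ 2 < ⊤ := by
  obtain ⟨C, hC⟩ := hK.exists_bound_of_continuousOn hg
  calc ∫⁻ z in K, ‖g z‖ₑ ^ 2 ≤ ∫⁻ _ in K, ENNReal.ofReal C ^ 2 := by
        refine setLIntegral_mono' hK.measurableSet fun z hz => ?_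
        gcongr
        rw [← ofReal_norm]
        exact ENNReal.ofReal_le_ofReal (hC z hz)
    _ < ⊤ := by
        rw [setLIntegral_const]
        exact ENNReal.mul_lt_top (ENNReal.pow_lt_top ENNReal.ofReal_lt_top) hK.measure_lt_top

/-- the pairing with a test function against the `L²` norm on a set containing the support -/
theorem pair_le {K : Set (Cn n)} {g : Cn n → W} {ψ : Cn n → ℂ}
    (hg : AEStronglyMeasurable g (volume.restrict K)) (hψ : Continuous ψ)
    (hs : ∀ z ∉ K, ψ z = 0) : ‖∫ z, ψ z • g z‖ₑ ≤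
      (∫⁻ z in K, ‖ψ z‖ₑ ^ 2) ^ (1 / 2 : ℝ) * (∫⁻ z in K, ‖g z‖ₑ ^ 2) ^ (1 / 2 : ℝ) := by
  rw [← setIntegral_eq_integral_of_forall_compl_eq_zero (s := K) fun z hz => by
    rw [hs z hz, zero_smul]]
  exact (enorm_integral_le_lintegral_enorm _).trans (cs _ hψ.aestronglyMeasurable hg)

theorem tend_pair0 {K : Set (Cn n)} (hK : IsCompact K) {g : ℕ → Cn n → W} {ψ : Cn n → ℂ}
    (hg : ∀ k, AEStronglyMeasurable (g k) (volume.restrict K)) (hψ : Continuous ψ)
    (hs : ∀ z ∉ K, ψ z = 0) (h : Tendsto (fun k => ∫⁻ z in K, ‖g k z‖ₑ ^ 2) atTop (𝓝 0)) :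
    Tendsto (fun k => ∫ z, ψ z • g k z) atTop (𝓝 0) := by
  have t1 := (ENNReal.continuous_rpow_const (y := (1 / 2 : ℝ))).tendsto 0 |>.comp h
  rw [ENNReal.zero_rpow_of_pos (by norm_num)] at t1
  have t2 := ENNReal.Tendsto.const_mul (a := (∫⁻ z in K, ‖ψ z‖ₑ ^ 2) ^ (1 / 2 : ℝ)) t1
    (Or.inr (ENNReal.rpow_ne_top_of_nonneg (by norm_num) (sq_lt_top hK hψ.continuousOn).ne))
  rw [mul_zero] at t2
  rw [tendsto_iff_edist_tendsto_0]
  refine tendsto_of_tendsto_of_tendsto_of_le_of_le tendsto_const_nhds t2 (fun _ => zero_le)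
    fun k => ?_
  simp only [edist_zero_right]
  exact pair_le (hg k) hψ hs

/-- pairing with a test function is continuous for local `L²` convergence -/
theorem tend_pair {O : Set (Cn n)} (hO : IsOpen O) {u : ℕ → Cn n → W} {S : Cn n → W}
    (hu : ∀ k, ContinuousOn (u k) O) (hS : ContinuousOn S O)
    (h : ∀ K ⊆ O, IsCompact K → Tendsto (fun k => ∫⁻ z in K, ‖u k z - S z‖ₑ ^ 2) atTop (𝓝 0))
    {ψ : Cn n → ℂ} (hψ : Continuous ψ) (hc : HasCompactSupport ψ) (hs : tsupport ψ ⊆ O) :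
    Tendsto (fun k => ∫ z, ψ z • u k z) atTop (𝓝 (∫ z, ψ z • S z)) := by
  have h1 := tend_pair0 hc (g := fun k z => u k z - S z)
    (fun k => (((hu k).sub hS).mono hs).aestronglyMeasurable hc.measurableSet) hψ
    (fun z hz => image_eq_zero_of_notMem_tsupport hz) (h _ hs hc)
  rw [← tendsto_sub_nhds_zero_iff]
  refine h1.congr fun k => ?_
  rw [← integral_sub (smul_int hO (hu k) hψ hc hs) (smul_int hO hS hψ hc hs)]
  simp only [smul_sub]

theorem fd_test {ψ : Cn n → ℂ} (hψ : ContDiff ℝ ∞ ψ) (hc : HasCompactSupport ψ) (v : Cn n) :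
    Continuous (fun x => fderiv ℝ ψ x v) ∧ HasCompactSupport (fun x => fderiv ℝ ψ x v) ∧
      tsupport (fun x => fderiv ℝ ψ x v) ⊆ tsupport ψ :=
  ⟨(hψ.continuous_fderiv (by simp)).clm_apply continuous_const, hc.fderiv_apply ℝ v,
    tsupport_fderiv_apply_subset ℝ v⟩

theorem dj_test {ψ : Cn n → ℂ} (hψ : ContDiff ℝ ∞ ψ) (hc : HasCompactSupport ψ) (b : Fin n) :
    Continuous (dj b ψ) ∧ HasCompactSupport (dj b ψ) ∧ tsupport (dj b ψ) ⊆ tsupport ψ := by
  have h3 : tsupport (dj b ψ) ⊆ tsupport ψ := by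
    refine closure_minimal (fun x hx => ?_) (isClosed_tsupport ψ)
    by_contra hx'
    have h1 : fderiv ℝ ψ x = 0 := by
      by_contra h
      exact hx' (support_fderiv_subset ℝ h)
    exact hx (by simp [dj, h1])
  refine ⟨?_, hc.of_isClosed_subset (isClosed_tsupport _) h3, h3⟩
  exact continuousOn_univ.1 (dj_contDiffOn isOpen_univ hψ.contDiffOn).continuousOn


/-- integration by parts against a test function -/
theorem ibp [CompleteSpace W] {O : Set (Cn n)} (hO : IsOpen O) {F : Cn n → W} {ψ : Cn n → ℂ}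
    (hF : ContDiffOn ℝ ∞ F O) (hψ : ContDiff ℝ ∞ ψ) (hc : HasCompactSupport ψ)
    (hs : tsupport ψ ⊆ O) (v : Cn n) :
    ∫ x, ψ x • fderiv ℝ F x v = - ∫ x, fderiv ℝ ψ x v • F x := by
  obtain ⟨c1, c2, c3⟩ := fd_test hψ hc v
  have c4 : ContinuousOn (fun x => fderiv ℝ F x v) O :=
    (hF.continuousOn_fderiv_of_isOpen hO (by simp)).clm_apply continuousOn_const
  have h := integral_bilinear_hasFDerivAt_right_eq_neg_left_of_integrable (μ := volume)
    (f := F) (g := ψ) (v := v) (B := (ContinuousLinearMap.lsmul ℝ ℂ : ℂ →L[ℝ] W →L[ℝ] W).flip)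
    (f' := fun x => fderiv ℝ F x) (g' := fun x => fderiv ℝ ψ x)
    (smul_int hO c4 hψ.continuous hc hs) (smul_int hO hF.continuousOn c1 c2 (c3.trans hs))
    (smul_int hO hF.continuousOn hψ.continuous hc hs)
    (fun x hx => (((hF.contDiffAt (hO.mem_nhds (hs hx))).differentiableAt (by simp))).hasFDerivAt)
    (fun x _ => ((hψ.differentiable (by simp)) x).hasFDerivAt)
  rw [eq_neg_iff_add_eq_zero, add_comm, ← eq_neg_iff_add_eq_zero]
  exact h

theorem int_dj [CompleteSpace W] {O : Set (Cn n)} (hO : IsOpen O) {F : Cn n → W} {ψ : Cn n → ℂ}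
    (hF : ContDiffOn ℝ ∞ F O) (hψ : ContDiff ℝ ∞ ψ) (hc : HasCompactSupport ψ)
    (hs : tsupport ψ ⊆ O) (b : Fin n) :
    ∫ x, ψ x • dj b F x = - ∫ x, dj b ψ x • F x := by
  have c4 : ∀ v, ContinuousOn (fun x => fderiv ℝ F x v) O := fun v =>
    (hF.continuousOn_fderiv_of_isOpen hO (by simp)).clm_apply continuousOn_const
  have i1 : ∀ v, Integrable fun x => ψ x • fderiv ℝ F x v := fun v =>
    smul_int hO (c4 v) hψ.continuous hc hs
  have i2 : ∀ v, Integrable fun x => fderiv ℝ ψ x v • F x := fun v =>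
    smul_int hO hF.continuousOn (fd_test hψ hc v).1 (fd_test hψ hc v).2.1
      ((fd_test hψ hc v).2.2.trans hs)
  have e1 : ∀ x, ψ x • dj b F x = (1 / 2 : ℂ) • (ψ x • fderiv ℝ F x (EuclideanSpace.single b 1) -
      I • (ψ x • fderiv ℝ F x (EuclideanSpace.single b I))) := fun x => by
    unfold dj; module
  have e2 : ∀ x, dj b ψ x • F x = (1 / 2 : ℂ) • (fderiv ℝ ψ x (EuclideanSpace.single b 1) • F x -
      I • (fderiv ℝ ψ x (EuclideanSpace.single b I) • F x)) := fun x => by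
    unfold dj; simp only [smul_eq_mul]; module
  simp only [e1, e2]
  have j1 : ∀ v, Integrable fun x => I • (ψ x • fderiv ℝ F x v) := fun v => (i1 v).smul I
  have j2 : ∀ v, Integrable fun x => I • (fderiv ℝ ψ x v • F x) := fun v => (i2 v).smul I
  rw [integral_smul, integral_smul, integral_sub (i1 _) (j1 _), integral_sub (i2 _) (j2 _),
    integral_smul, integral_smul, ibp hO hF hψ hc hs,
    ibp hO hF hψ hc hs]
  module


/-- a continuous function orthogonal to the test functions vanishes -/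
theorem zero_of_test [CompleteSpace W] {O : Set (Cn n)} (hO : IsOpen O) {g : Cn n → W}
    (hg : ContinuousOn g O) (h : ∀ ψ : Cn n → ℂ, ContDiff ℝ ∞ ψ → HasCompactSupport ψ →
      tsupport ψ ⊆ O → ∫ z, ψ z • g z = 0) : ∀ z ∈ O, g z = 0 := by
  have h1 := hO.ae_eq_zero_of_integral_contDiff_smul_eq_zero (μ := volume)
    (hg.locallyIntegrableOn hO.measurableSet) fun φ h1 h2 h3 => by
      have h4 := h (fun z => (φ z : ℂ)) (ofRealCLM.contDiff.comp h1)
        (h2.comp_left (g := fun t : ℝ => (t : ℂ)) (by simp))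
        ((closure_mono (Function.support_comp_subset (g := fun t : ℝ => (t : ℂ)) (by simp) φ)).trans
          h3)
      simpa only [Complex.coe_smul] using h4
  have h2 : g =ᵐ[volume.restrict O] fun _ => 0 := (ae_restrict_iff' hO.measurableSet).2 h1
  exact Measure.eqOn_open_of_ae_eq h2 hO hg continuousOn_const

end

end Crest.Agent.X261.Fam20
end

-- ▼ part X261/Fam20/B
section

/-!
# X261, package FAM, part POST (helper20), file `B`: consequences of `Rel.Lim`

The pointwise identities of the forms `∂f ∧ τ` pass to the holomorphic limit: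
`tr`, `deg`, `hor`, `closed`, `map` (naturality), `eqv`, `uniq`.
-/

set_option autoImplicit false
set_option linter.unusedSectionVars false
set_option linter.dupNamespace false

open Set Filter Topology Complex Matrix MeasureTheory
open scoped ENNReal InnerProductSpace ContDiff

namespace Crest.Agent.X261.Fam20

open Crest.Agent.R275.Geo Crest.Agent.R275.Core144
open Crest.Agent.R275.OmT75 (dj dl dj_congr dj_sum dj_pi dj_contDiffOn dl_chain tr tr_val
  J_smooth tr_diffAt)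
open Crest.Agent.R273.UCov_914
open Crest.Agent.R273.Fock_243 (FI Gam eW iW ep eW_anti eW_sq eW_eq_sum Gam_eW)
open Crest.Agent.X261.Top (wdg dW HolV)
open Crest.Agent.X261.Gauss (mv dV)
open Crest.Agent.X261.Rel (aV tw Lim)
open Crest.Agent.X261.Rel.Act (Act)
open Crest.Agent.X261.Jet.Tb (wdg_cons dg_wdg eW_wdg Gam_wdg)

noncomputable section

variable {n q : ℕ} {H H' : Type} [NormedAddCommGroup H] [InnerProductSpace ℂ H]
  [NormedAddCommGroup H'] [InnerProductSpace ℂ H']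

/-! ### algebra -/

/-- `θ ∧ τ` for a vector valued covector `θ` -/
def wv (τ : FI n → ℂ) (θ : Fin n → H) : FI n → H := fun I => ∑ b, (eW (ep b) *ᵥ τ) I • θ b

theorem mv_wv (B : Matrix (FI n) (FI n) ℂ) (τ : FI n → ℂ) (θ : Fin n → H) :
    mv B (wv τ θ) = fun I => ∑ b, (B *ᵥ (eW (ep b) *ᵥ τ)) I • θ b := by
  funext I
  simp only [mv, wv, Finset.smul_sum, smul_smul]
  rw [Finset.sum_comm]
  refine Finset.sum_congr rfl fun b _ => ?_
  rw [← Finset.sum_smul]
  rfl

theorem wv_deg (θ' : Fin q → Fin n → ℂ) (θ : Fin n → H) {I : FI n} (hI : I.card ≠ q + 1) :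
    wv (wdg θ') θ I = 0 := by
  refine Finset.sum_eq_zero fun b _ => ?_
  have h1 : eW (ep b) *ᵥ wdg θ' = wdg (Fin.cons (ep b) θ' : Fin (q + 1) → Fin n → ℂ) := by
    rw [wdg_cons]; rfl
  rw [h1, dg_wdg _ I hI, zero_smul]

theorem wv_hor (θ' : Fin q → Fin n → ℂ) (θ : Fin n → H) (k : Fin q) :
    mv (eW (θ' k)) (wv (wdg θ') θ) = 0 := by
  rw [mv_wv]
  funext I
  simp only [fun b => eW_swap (θ' k) (ep b) (wdg θ'), eW_wdg, Matrix.mulVec_zero, neg_zero,
    Pi.zero_apply, zero_smul, Finset.sum_const_zero]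

theorem wv_tr (B : Matrix (Fin n) (Fin n) ℂ) (τ : FI n → ℂ) (θ : Fin n → H) :
    mv (Gam B) (wv τ θ) = wv (Gam B *ᵥ τ) fun b => ∑ c, B b c • θ c := by
  rw [mv_wv]
  funext I
  simp only [wv, Finset.smul_sum, smul_smul]
  rw [Finset.sum_comm]
  refine Finset.sum_congr rfl fun c _ => ?_
  rw [← Finset.sum_smul, Matrix.mulVec_mulVec, Gam_eW, ← Matrix.mulVec_mulVec, eW_mulVec,
    Finset.sum_apply]
  congr 1
  refine Finset.sum_congr rfl fun b _ => ?_
  rw [Pi.smul_apply, smul_eq_mul, mul_comm]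
  congr 1
  simp [ep]

theorem wv_clm (L : H →L[ℂ] H') (τ : FI n → ℂ) (θ : Fin n → H) (I : FI n) :
    L (wv τ θ I) = wv τ (fun b => L (θ b)) I := by
  simp only [wv, map_sum, map_smul]

theorem wv_scalar (τ : FI n → ℂ) (θ : Fin n → ℂ) : wv τ θ = eW θ *ᵥ τ := by
  funext I
  rw [eW_mulVec, Finset.sum_apply]
  exact Finset.sum_congr rfl fun b _ => by simp [mul_comm]

theorem mv_tendsto {α : Type*} {l : Filter α} {B : α → Matrix (FI n) (FI n) ℂ}
    {B₀ : Matrix (FI n) (FI n) ℂ} {u : α → FI n → H} {s : FI n → H}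
    (hB : ∀ I J, Tendsto (fun k => B k I J) l (𝓝 (B₀ I J)))
    (h : ∀ I, Tendsto (fun k => u k I) l (𝓝 (s I))) (I : FI n) :
    Tendsto (fun k => mv (B k) (u k) I) l (𝓝 (mv B₀ s I)) :=
  tendsto_finsetSum _ fun J _ => (hB I J).smul (h J)

/-! ### the flat form -/

/-- `∂F ∧ ∂a_1 ∧ … ∧ ∂a_q` -/
def fw (a : Cn n → Cn q) (F : Cn n → H) (z : Cn n) : FI n → H :=
  wv (Wd (fun k w => a w k) z) fun b => dj b F z

theorem comp_smooth {O : Set (Cn n)} {a : Cn n → Cn q} (ha : ContDiffOn ℝ ∞ a O) (k : Fin q) :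
    ContDiffOn ℝ ∞ (fun w => a w k) O :=
  ((EuclideanSpace.proj k : Cn q →L[ℂ] ℂ).restrictScalars ℝ).contDiff.comp_contDiffOn ha

theorem fw_smooth {O : Set (Cn n)} (hO : IsOpen O) {a : Cn n → Cn q} {F : Cn n → H}
    (ha : ContDiffOn ℝ ∞ a O) (hF : ContDiffOn ℝ ∞ F O) (I : FI n) :
    ContDiffOn ℝ ∞ (fun z => fw a F z I) O := by
  unfold fw wv
  refine ContDiffOn.sum fun b _ => ?_
  have h1 := ((mL (eW (ep b))).restrictScalars ℝ).contDiff.comp_contDiffOn
    (Wd_smooth hO (comp_smooth ha))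
  exact (contDiffOn_pi.1 h1 I).smul (dj_contDiffOn hO hF)

theorem fw_clm (L : H →L[ℂ] H') (a : Cn n → Cn q) {F : Cn n → H} {z : Cn n}
    (hF : DifferentiableAt ℝ F z) (I : FI n) : L (fw a F z I) = fw a (fun w => L (F w)) z I := by
  simp only [fw, wv_clm, dj_clm L hF]

theorem fw_scalar (a : Cn n → Cn q) (F : Cn n → ℂ) (z : Cn n) :
    fw a F z = Wd (Fin.cons F fun k w => a w k : Fin (q + 1) → Cn n → ℂ) z := by
  rw [fw, wv_scalar, Wd, Wd, wdg_cons]
  rfl

/-- the limit of `∂F_k ∧ ∂a` is `∂`-closed (scalar case) -/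
theorem closed_scalar {O : Set (Cn n)} (hO : IsOpen O) {a : Cn n → Cn q} {F : ℕ → Cn n → ℂ}
    {S : Cn n → FI n → ℂ} (ha : ContDiffOn ℝ ∞ a O) (hF : ∀ k, ContDiffOn ℝ ∞ (F k) O)
    (hS : ∀ I, ContDiffOn ℝ ∞ (fun z => S z I) O)
    (h : ∀ K ⊆ O, IsCompact K → ∀ I,
      Tendsto (fun k => ∫⁻ z in K, ‖fw a (F k) z I - S z I‖ₑ ^ 2) atTop (𝓝 0))
    (I : FI n) : ∀ z ∈ O, ∑ b, ∑ J, (eW (ep b) I J : ℂ) • dj b (fun w => S w J) z = 0 := by
  have key : ∀ T : Cn n → FI n → ℂ, (∀ J, ContDiffOn ℝ ∞ (fun z => T z J) O) →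
      ∀ ψ : Cn n → ℂ, ContDiff ℝ ∞ ψ → HasCompactSupport ψ → tsupport ψ ⊆ O →
      ∫ z, ψ z • ∑ b, ∑ J, (eW (ep b) I J : ℂ) • dj b (fun w => T w J) z =
        ∑ b, ∑ J, (eW (ep b) I J : ℂ) • -∫ z, dj b ψ z • T z J := by
    intro T hT ψ h1 h2 h3
    have i1 : ∀ (b : Fin n) (J : FI n), Integrable fun z =>
        (eW (ep b) I J : ℂ) • (ψ z • dj b (fun w => T w J) z) := fun b J =>
      (smul_int hO (dj_contDiffOn hO (hT J)).continuousOn h1.continuous h2 h3).smul
        (eW (ep b) I J : ℂ)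
    simp only [Finset.smul_sum, smul_comm (ψ _)]
    rw [integral_finsetSum _ fun b _ => integrable_finsetSum _ fun J _ => i1 b J]
    refine Finset.sum_congr rfl fun b _ => ?_
    rw [integral_finsetSum _ fun J _ => i1 b J]
    refine Finset.sum_congr rfl fun J _ => ?_
    rw [integral_smul, int_dj hO (hT J) h1 h2 h3]
  refine zero_of_test hO (continuousOn_finsetSum _ fun b _ => continuousOn_finsetSum _
    fun J _ => (dj_contDiffOn hO (hS J)).continuousOn.const_smul (eW (ep b) I J : ℂ))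
    fun ψ h1 h2 h3 => ?_
  rw [key S hS ψ h1 h2 h3]
  have t1 : Tendsto (fun k => ∑ b, ∑ J, (eW (ep b) I J : ℂ) • -∫ z, dj b ψ z • fw a (F k) z J) atTop
      (𝓝 (∑ b, ∑ J, (eW (ep b) I J : ℂ) • -∫ z, dj b ψ z • S z J)) := by
    refine tendsto_finsetSum _ fun b _ => tendsto_finsetSum _ fun J _ => ?_
    obtain ⟨c1, c2, c3⟩ := dj_test h1 h2 b
    exact (tend_pair hO (fun k => (fw_smooth hO ha (hF k) J).continuousOn) (hS J).continuousOn
      (fun K hK hc => h K hK hc J) c1 c2 (c3.trans h3)).neg.const_smul _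
  refine tendsto_nhds_unique t1 (tendsto_const_nhds.congr fun k => ?_)
  rw [← key _ (fw_smooth hO ha (hF k)) ψ h1 h2 h3]
  symm
  refine integral_eq_zero_of_ae (Eventually.of_forall fun z => ?_)
  by_cases hz : z ∈ O
  · set g : Fin (q + 1) → Cn n → ℂ := Fin.cons (F k) fun k w => a w k with hg
    have hgs : ∀ j, ContDiffOn ℝ ∞ (g j) O := fun j => by
      refine Fin.cases ?_ (fun j => ?_) j
      · exact hF k
      · exact comp_smooth ha j
    have h4 := congrFun (d_Wd hO hz hgs) I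
    have h5 : DifferentiableAt ℝ (Wd g) z :=
      ((Wd_smooth hO hgs).contDiffAt (hO.mem_nhds hz)).differentiableAt (by simp)
    have h6 : ∑ b, ∑ J, (eW (ep b) I J : ℂ) • dj b (fun w => fw a (F k) w J) z = 0 := by
      rw [Finset.sum_apply] at h4
      refine Eq.trans (Finset.sum_congr rfl fun b _ => ?_) h4
      refine Finset.sum_congr rfl fun J _ => ?_
      simp only [fw_scalar]
      rw [dj_pi h5 J]
      rfl
    simp only [h6, smul_zero, Pi.zero_apply]
  · simp only [image_eq_zero_of_notMem_tsupport fun h => hz (h3 h), zero_smul, Pi.zero_apply]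

theorem enorm_clm_le (L : H →L[ℂ] H') (x : H) : ‖L x‖ₑ ^ 2 ≤ ‖L‖ₑ ^ 2 * ‖x‖ₑ ^ 2 := by
  rw [← mul_pow]
  gcongr
  exact L.le_opENorm x

theorem tend_clm {α : Type*} [MeasurableSpace α] {μ : Measure α} (L : H →L[ℂ] H')
    {u : ℕ → α → H} (h : Tendsto (fun k => ∫⁻ z, ‖u k z‖ₑ ^ 2 ∂μ) atTop (𝓝 0)) :
    Tendsto (fun k => ∫⁻ z, ‖L (u k z)‖ₑ ^ 2 ∂μ) atTop (𝓝 0) := by
  have h1 := ENNReal.Tendsto.const_mul (a := ‖L‖ₑ ^ 2) h (Or.inr (by simp))
  rw [mul_zero] at h1
  refine tendsto_of_tendsto_of_tendsto_of_le_of_le tendsto_const_nhds h1 (fun _ => zero_le)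
    fun k => ?_
  rw [← lintegral_const_mul' _ _ (by simp)]
  exact lintegral_mono fun z => enorm_clm_le L _

theorem hol_smooth_clm {O : Set (Cn n)} (hO : IsOpen O) {S : Cn n → H}
    (hS : DifferentiableOn ℂ S O) (L : H →L[ℂ] ℂ) : ContDiffOn ℝ ∞ (fun z => L (S z)) O := by
  have h1 : DifferentiableOn ℂ (fun z => L (S z)) O := L.differentiable.comp_differentiableOn hS
  exact ((R266.SCV.analyticOnNhd_of_differentiableOn hO h1).contDiffOn_of_completeSpace
    (n := ∞)).restrict_scalars ℝ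

/-- the holomorphic limit of `∂F_k ∧ ∂a` is `∂`-closed -/
theorem closed_flat {O : Set (Cn n)} (hO : IsOpen O) {a : Cn n → Cn q} {F : ℕ → Cn n → H}
    {S : Cn n → FI n → H} (ha : ContDiffOn ℝ ∞ a O) (hF : ∀ k, ContDiffOn ℝ ∞ (F k) O)
    (hS : ∀ I, DifferentiableOn ℂ (fun z => S z I) O)
    (h : ∀ K ⊆ O, IsCompact K → ∀ I,
      Tendsto (fun k => ∫⁻ z in K, ‖fw a (F k) z I - S z I‖ₑ ^ 2) atTop (𝓝 0))
    {z : Cn n} (hz : z ∈ O) : ∑ b, mv (eW (ep b)) (fun I => dj b (fun w => S w I) z) = 0 := by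
  funext I
  refine ext_inner_left ℂ fun ξ => ?_
  set L : H →L[ℂ] ℂ := innerSL ℂ ξ with hL
  have h1 := closed_scalar hO (F := fun k w => L (F k w)) (S := fun w J => L (S w J)) ha
    (fun k => (L.restrictScalars ℝ).contDiff.comp_contDiffOn (hF k))
    (fun J => hol_smooth_clm hO (hS J) L) (fun K hK hc J => ?_) I z hz
  · change L _ = L _
    rw [Finset.sum_apply, map_sum, Pi.zero_apply, map_zero]
    refine Eq.trans (Finset.sum_congr rfl fun b _ => ?_) h1
    rw [mv, map_sum]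
    refine Finset.sum_congr rfl fun J _ => ?_
    rw [map_smul, dj_clm L (((hS J).differentiableAt (hO.mem_nhds hz)).restrictScalars ℝ)]
  · refine (tend_clm L (h K hK hc J)).congr fun k => ?_
    refine setLIntegral_congr_fun hc.measurableSet fun w hw => ?_
    rw [map_sub, fw_clm L a
      (((hF k).contDiffAt (hO.mem_nhds (hK hw))).differentiableAt (by simp))]

/-! ### on the manifold -/

variable {X : Type} [TopologicalSpace X] {A : Atl n X} {G : Type} [Group G] {D : MonD A G}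

/-- reading in the chart `i` on the sheet `v` -/
abbrev rdv {W : Type*} (D : MonD A G) (f : D.cov G → W) (i : A.ι) (v : G) : Cn n → W :=
  fun z => f (D.pt i v ((A.e i).symm z))

theorem tw_eq (al : D.cov G → Cn q) (f : D.cov G → H) (i : A.ι) (v : G) (x : X) :
    tw D al f i v x = fw (rdv D al i v) (rdv D f i v) (A.e i x) := rfl

theorem tw_eq' (al : D.cov G → Cn q) (f : D.cov G → H) {i : A.ι} (v : G) {z : Cn n}
    (hz : z ∈ (A.e i).target) :
    tw D al f i v ((A.e i).symm z) = fw (rdv D al i v) (rdv D f i v) z := by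
  rw [tw_eq, (A.e i).right_inv hz]

theorem tw_wv (al : D.cov G → Cn q) (f : D.cov G → H) (i : A.ι) (v : G) (x : X) :
    tw D al f i v x = wv (wdg (dV A i (aV D al i v) x)) fun b => dl A i b (aV D f i v) x := rfl

theorem hal_hol {al : D.cov G → Cn q} (hal : HolV (D.atl G) univ al) (i : A.ι) (v : G) :
    DifferentiableOn ℂ (rdv D al i v) (A.e i).target := by
  have := hal (i, v)
  rw [preimage_univ, inter_univ] at this
  exact this

theorem hal_sm {al : D.cov G → Cn q} (hal : HolV (D.atl G) univ al) : (D.atl G).Sm al :=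
  fun p => ((R266.SCV.analyticOnNhd_of_differentiableOn (A.e p.1).open_target
    (hal_hol hal p.1 p.2)).contDiffOn_of_completeSpace (n := ∞)).restrict_scalars ℝ

theorem sm_rdv {W : Type*} [NormedAddCommGroup W] [NormedSpace ℝ W] {f : D.cov G → W}
    (hf : (D.atl G).Sm f) (i : A.ι) (v : G) : ContDiffOn ℝ ∞ (rdv D f i v) (A.e i).target :=
  hf (i, v)

theorem tw_smooth {al : D.cov G → Cn q} {f : D.cov G → H} (hal : (D.atl G).Sm al)
    (hf : (D.atl G).Sm f) (i : A.ι) (v : G) (I : FI n) :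
    ContDiffOn ℝ ∞ (fun z => tw D al f i v ((A.e i).symm z) I) (A.e i).target :=
  (fw_smooth (A.e i).open_target (sm_rdv hal i v) (sm_rdv hf i v) I).congr fun z hz => by
    rw [tw_eq' al f v hz]

variable {al al' : D.cov G → Cn q} {f : ℕ → D.cov G → H} {S : A.ι → G → X → FI n → H}
  {f' : ℕ → D.cov G → H'} {S' : A.ι → G → X → FI n → H'}

theorem lim_comp (h : Lim D al f S) {φ : ℕ → ℕ} (hφ : StrictMono φ) :
    Lim D al (fun k => f (φ k)) S :=
  ⟨fun k => h.f_sm (φ k), h.S_hol, fun i v K hK hc I => (h.lim i v K hK hc I).comp hφ.tendsto_atTop⟩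

/-- pointwise convergence -/
def Cv (D : MonD A G) (al : D.cov G → Cn q) (f : ℕ → D.cov G → H) (S : A.ι → G → X → FI n → H)
    (i : A.ι) (v : G) (x : X) : Prop :=
  ∀ I, Tendsto (fun k => tw D al (f k) i v x I) atTop (𝓝 (S i v x I))

theorem lim_sub (hal : (D.atl G).Sm al) (h : Lim D al f S) (i : A.ι) (v : G) {K : Set (Cn n)}
    (hK : K ⊆ (A.e i).target) (hc : IsCompact K) : ∃ φ : ℕ → ℕ, StrictMono φ ∧
      ∀ᵐ z, z ∈ K → Cv D al (fun k => f (φ k)) S i v ((A.e i).symm z) := by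
  have hm : ∀ k I, AEMeasurable (fun z => ‖tw D al (f k) i v ((A.e i).symm z) I -
      S i v ((A.e i).symm z) I‖ₑ ^ 2) (volume.restrict K) := fun k I =>
    ((((tw_smooth hal (h.f_sm k) i v I).continuousOn.sub (h.S_hol i v I).continuousOn).mono
      hK).aestronglyMeasurable hc.measurableSet).enorm.pow_const 2
  obtain ⟨φ, hφ, h1⟩ := exists_sub (μ := volume.restrict K) (F := fun k z => ∑ I,
    ‖tw D al (f k) i v ((A.e i).symm z) I - S i v ((A.e i).symm z) I‖ₑ ^ 2)
    (fun k => Finset.aemeasurable_fun_sum _ fun I _ => hm k I) (by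
      have h2 := tendsto_finsetSum (Finset.univ : Finset (FI n))
        fun I _ => h.lim i v K hK hc I
      rw [Finset.sum_const_zero] at h2
      refine h2.congr fun k => ?_
      rw [lintegral_finsetSum' _ fun I _ => hm k I])
  refine ⟨φ, hφ, ?_⟩
  rw [ae_restrict_iff' hc.measurableSet] at h1
  filter_upwards [h1] with z hz hzK I
  refine tend_of_sq (tendsto_of_tendsto_of_tendsto_of_le_of_le tendsto_const_nhds (hz hzK)
    (fun _ => zero_le) fun k => ?_)
  exact Finset.single_le_sum (f := fun I => ‖tw D al (f (φ k)) i v ((A.e i).symm z) I -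
    S i v ((A.e i).symm z) I‖ₑ ^ 2) (fun _ _ => zero_le) (Finset.mem_univ I)

/-- simultaneous convergence in two charts at points close to a given one -/
theorem freq (hal : (D.atl G).Sm al) (hal' : (D.atl G).Sm al') (h : Lim D al f S)
    (h' : Lim D al' f' S') {i j : A.ι} (v w : G) {x : X}
    (hx : x ∈ (A.e i).source ∩ (A.e j).source) : ∃ᶠ y in 𝓝 x, ∃ φ : ℕ → ℕ,
      Cv D al (fun k => f (φ k)) S i v y ∧ Cv D al' (fun k => f' (φ k)) S' j w y := by
  have hz : A.e i x ∈ A.ov i j := mem_ov hx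
  obtain ⟨r, hr, hK⟩ := Metric.nhds_basis_closedBall.mem_iff.1 ((isOpen_ov i j).mem_nhds hz)
  set K := Metric.closedBall (A.e i x) r with hKd
  have hc : IsCompact K := isCompact_closedBall _ _
  have hd : DifferentiableOn ℝ (tr A i j) K := fun z hz =>
    ((tr_diffAt (hK hz)).restrictScalars ℝ).differentiableWithinAt
  have hc' : IsCompact (tr A i j '' K) := hc.image_of_continuousOn hd.continuousOn
  have hK' : tr A i j '' K ⊆ A.ov j i := by
    rintro _ ⟨z, hz, rfl⟩
    have h1 := (hK hz).2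
    refine ⟨(A.e j).map_source h1, ?_⟩
    change (A.e j).symm (A.e j ((A.e i).symm z)) ∈ _
    rw [(A.e j).left_inv h1]
    exact (A.e i).map_target (hK hz).1
  obtain ⟨φ, hφ, h1⟩ := lim_sub hal h i v (fun z hz => (hK hz).1) hc
  obtain ⟨ψ, hψ, h2⟩ := lim_sub hal' (lim_comp h' hφ) j w (fun z hz => (hK' hz).1) hc'
  set N := {z | ¬(z ∈ tr A i j '' K →
    Cv D al' (fun k => f' (φ (ψ k))) S' j w ((A.e j).symm z))} with hN
  have hN0 : volume N = 0 := h2
  have hNK : N ⊆ A.ov j i := fun z hz => hK' (by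
    by_contra h3
    exact hz fun h4 => absurd h4 h3)
  have h3 : volume (tr A j i '' N) = 0 :=
    addHaar_image_eq_zero_of_differentiableOn_of_addHaar_eq_zero volume (fun z hz =>
      ((tr_diffAt (hNK hz)).restrictScalars ℝ).differentiableWithinAt) hN0
  have h4 : ∀ᵐ z, z ∈ K → ∃ φ : ℕ → ℕ, Cv D al (fun k => f (φ k)) S i v ((A.e i).symm z) ∧
      Cv D al' (fun k => f' (φ k)) S' j w ((A.e i).symm z) := by
    filter_upwards [h1, measure_eq_zero_iff_ae_notMem.1 h3] with z hz1 hz2 hzK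
    have e1 : (A.e j).symm (tr A i j z) = (A.e i).symm z := (A.e j).left_inv (hK hzK).2
    refine ⟨fun k => φ (ψ k), fun I => (hz1 hzK I).comp hψ.tendsto_atTop, ?_⟩
    by_contra h5
    refine hz2 ⟨tr A i j z, fun h6 => h5 ?_, ?_⟩
    · rw [← e1]
      exact h6 (mem_image_of_mem _ hzK)
    · change A.e i ((A.e j).symm (tr A i j z)) = z
      rw [e1, (A.e i).right_inv (hK hzK).1]
  have h5 : ∃ᶠ z in 𝓝 (A.e i x), ∃ φ : ℕ → ℕ, Cv D al (fun k => f (φ k)) S i v ((A.e i).symm z) ∧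
      Cv D al' (fun k => f' (φ k)) S' j w ((A.e i).symm z) := by
    have h6 := mem_closure_iff_frequently.1 (Measure.dense_of_ae h4 (A.e i x))
    exact (h6.and_eventually (Metric.closedBall_mem_nhds _ hr)).mono fun z hz => hz.1 hz.2
  have h7 : Tendsto (A.e i).symm (𝓝 (A.e i x)) (𝓝 x) := (A.e i).tendsto_symm hx.1
  exact h7.frequently h5

theorem cont_of_chart {W : Type*} [TopologicalSpace W] {i : A.ι} {g : X → W} {O : Set (Cn n)}
    (hO : IsOpen O) (hg : ContinuousOn (fun z => g ((A.e i).symm z)) O) {x : X}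
    (hx : x ∈ (A.e i).source) (hxO : A.e i x ∈ O) : ContinuousAt g x := by
  have h1 : ContinuousAt (fun y => g ((A.e i).symm (A.e i y))) x :=
    ContinuousAt.comp (f := A.e i) (hg.continuousAt (hO.mem_nhds hxO)) ((A.e i).continuousAt hx)
  refine h1.congr ?_
  filter_upwards [(A.e i).open_source.mem_nhds hx] with y hy
  rw [(A.e i).left_inv hy]

theorem S_cont (h : Lim D al f S) {i : A.ι} (v : G) {x : X} (hx : x ∈ (A.e i).source) (I : FI n) :
    ContinuousAt (fun y => S i v y I) x :=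
  cont_of_chart (A.e i).open_target (h.S_hol i v I).continuousOn hx ((A.e i).map_source hx)

theorem dV_cont (hal : (D.atl G).Sm al) {i : A.ι} (v : G) {x : X} (hx : x ∈ (A.e i).source)
    (k : Fin q) (b : Fin n) : ContinuousAt (fun y => dV A i (aV D al i v) y k b) x := by
  refine cont_of_chart (A.e i).open_target ?_ hx ((A.e i).map_source hx)
  refine (dj_contDiffOn (a := b) (A.e i).open_target
    (comp_smooth (sm_rdv hal i v) k)).continuousOn.congr fun z hz => ?_
  simp only [dV, dl, (A.e i).right_inv hz]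
  rfl

/-- field `deg` of `Rel.Min` -/
theorem deg (hal : HolV (D.atl G) univ al) (h : Lim D al f S) :
    ∀ i v, ∀ x ∈ (A.e i).source, ∀ I : FI n, I.card ≠ q + 1 → S i v x I = 0 := by
  intro i v x hx I hI
  refine tendsto_nhds_unique_of_frequently_eq (S_cont h v hx I) tendsto_const_nhds
    ((freq (hal_sm hal) (hal_sm hal) h h v v ⟨hx, hx⟩).mono ?_)
  rintro y ⟨φ, h1, -⟩
  refine tendsto_nhds_unique (h1 I) (tendsto_const_nhds.congr fun k => ?_)
  rw [tw_wv, wv_deg _ _ hI]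

theorem eW_cont {α : Type*} {l : Filter α} {a : α → Fin n → ℂ} {a₀ : Fin n → ℂ}
    (h : ∀ b, Tendsto (fun k => a k b) l (𝓝 (a₀ b))) (I J : FI n) :
    Tendsto (fun k => eW (a k) I J) l (𝓝 (eW a₀ I J)) := by
  have h1 : ∀ a : Fin n → ℂ, eW a I J = ∑ b, a b * eW (ep b) I J := fun a => by
    rw [eW_eq_sum a, Matrix.sum_apply]
    rfl
  rw [h1 a₀]
  exact (tendsto_finsetSum _ fun b _ => (h b).mul_const _).congr fun k => (h1 _).symm

theorem cont_Gam (I J : FI n) : Continuous fun B : Matrix (Fin n) (Fin n) ℂ => Gam B I J := by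
  unfold Gam
  split_ifs with h
  · exact (continuous_id.matrix_submatrix _ _).matrix_det
  · exact continuous_const

/-- field `hor` of `Rel.Min` -/
theorem hor (hal : HolV (D.atl G) univ al) (h : Lim D al f S) :
    ∀ i v, ∀ x ∈ (A.e i).source, ∀ k, mv (eW (dV A i (aV D al i v) x k)) (S i v x) = 0 := by
  intro i v x hx k
  funext I
  refine tendsto_nhds_unique_of_frequently_eq (l := 𝓝 x) (mv_tendsto
    (B := fun y => eW (dV A i (aV D al i v) y k)) (u := fun y => S i v y)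
    (eW_cont (dV_cont (hal_sm hal) v hx k)) (S_cont h v hx) I) tendsto_const_nhds
    ((freq (hal_sm hal) (hal_sm hal) h h v v ⟨hx, hx⟩).mono ?_)
  rintro y ⟨φ, h1, -⟩
  refine tendsto_nhds_unique (mv_tendsto (B := fun _ => eW (dV A i (aV D al i v) y k))
    (fun _ _ => tendsto_const_nhds) h1 I) (tendsto_const_nhds.congr fun k => ?_)
  rw [tw_wv, wv_hor]

/-- field `closed` of `Rel.Min` -/
theorem closed (hal : HolV (D.atl G) univ al) (h : Lim D al f S) :
    ∀ i v, ∀ x ∈ (A.e i).source,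
      ∑ b, mv (eW (ep b)) (fun I => dl A i b (fun y => S i v y I) x) = 0 := by
  intro i v x hx
  refine closed_flat (A.e i).open_target (a := rdv D al i v) (F := fun k => rdv D (f k) i v)
    (S := fun z => S i v ((A.e i).symm z)) (sm_rdv (hal_sm hal) i v)
    (fun k => sm_rdv (h.f_sm k) i v) (h.S_hol i v) (fun K hK hc I => ?_) ((A.e i).map_source hx)
  refine (h.lim i v K hK hc I).congr fun k => setLIntegral_congr_fun hc.measurableSet
    fun z hz => ?_
  rw [tw_eq' al (f k) v (hK hz)]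

theorem dl_congr_src {W : Type*} [NormedAddCommGroup W] [NormedSpace ℂ W] {i : A.ι}
    {g g' : X → W} {x : X} (hx : x ∈ (A.e i).source) (h : g =ᶠ[𝓝 x] g') (b : Fin n) :
    dl A i b g x = dl A i b g' x :=
  dj_congr (((A.e i).tendsto_symm hx).eventually h)

theorem dl_tr {W : Type*} [NormedAddCommGroup W] [NormedSpace ℂ W] {g : D.cov G → W}
    (hg : (D.atl G).Sm g) {i j : A.ι} (v : G) {x : X}
    (hx : x ∈ (A.e i).source ∩ (A.e j).source) (b : Fin n) :
    dl A i b (aV D g i v) x = ∑ c, A.J i j x c b • dl A j c (aV D g j (D.c i j x * v)) x := by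
  rw [← dl_chain (f := aV D g j (D.c i j x * v)) (((sm_rdv hg j _).contDiffAt
    ((A.e j).open_target.mem_nhds ((A.e j).map_source hx.2))).differentiableAt (by simp)) hx]
  refine dl_congr_src hx.1 ?_ b
  filter_upwards [((A.e i).open_source.inter (A.e j).open_source).mem_nhds hx] with y hy
  simp only [aV]
  rw [D.pt_eq v hy.1 hy.2, D.c_loc i j y hy x hx, smul_eq_mul]

theorem tw_tr {g : D.cov G → H} (hal : (D.atl G).Sm al) (hg : (D.atl G).Sm g) {i j : A.ι} (v : G)
    {x : X} (hx : x ∈ (A.e i).source ∩ (A.e j).source) :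
    tw D al g i v x = mv (Gam (Jm A i j x)ᵀ) (tw D al g j (D.c i j x * v) x) := by
  rw [tw_wv, tw_wv, wv_tr, Gam_wdg]
  congr 1
  · congr 1
    funext k b
    have h1 := dl_tr (g := fun e => al e k) (fun p => comp_smooth (hal p) k) v hx b
    exact h1
  · funext b
    exact dl_tr hg v hx b

/-- field `S_tr` of `Rel.Min` -/
theorem trS (hal : HolV (D.atl G) univ al) (h : Lim D al f S) :
    ∀ i j v, ∀ x ∈ (A.e i).source ∩ (A.e j).source,
      S i v x = mv (Gam (Jm A i j x)ᵀ) (S j (D.c i j x * v) x) := by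
  intro i j v x hx
  funext I
  have hJ : ∀ I J, ContinuousAt (fun y => Gam (Jm A i j y)ᵀ I J) x := fun I J =>
    ContinuousAt.comp (f := fun y => (Jm A i j y)ᵀ) (cont_Gam I J).continuousAt
      (continuousAt_pi.2 fun a => continuousAt_pi.2 fun b =>
        cont_of_chart (isOpen_ov i j) (J_smooth i j b a).continuousOn hx.1 (mem_ov hx))
  refine tendsto_nhds_unique_of_frequently_eq (l := 𝓝 x) (S_cont h v hx.1 I) (mv_tendsto
    (B := fun y => Gam (Jm A i j y)ᵀ) (u := fun y => S j (D.c i j x * v) y) hJ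
    (S_cont h _ hx.2) I) (((freq (hal_sm hal) (hal_sm hal) h h v (D.c i j x * v) hx).and_eventually
      (((A.e i).open_source.inter (A.e j).open_source).mem_nhds hx)).mono ?_)
  rintro y ⟨⟨φ, h1, h2⟩, hy⟩
  refine tendsto_nhds_unique (h1 I) ((mv_tendsto (B := fun _ => Gam (Jm A i j y)ᵀ)
    (fun _ _ => tendsto_const_nhds) h2 I).congr fun k => ?_)
  rw [tw_tr (hal_sm hal) (h.f_sm _) v hy, D.c_loc i j y hy x hx]

/-- naturality of the limit -/
theorem map (hal : HolV (D.atl G) univ al) (hal' : HolV (D.atl G) univ al') (h : Lim D al f S)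
    (h' : Lim D al' f' S') (L : H →L[ℂ] H') (c : ℂ) {i : A.ι} {v w : G}
    (hτ : ∀ x ∈ (A.e i).source, dW A i (aV D al' i w) x = c • dW A i (aV D al i v) x)
    (hf : ∀ k, ∃ b, ∀ x ∈ (A.e i).source, f' k (D.pt i w x) = L (f k (D.pt i v x)) + b) :
    ∀ x ∈ (A.e i).source, ∀ I, S' i w x I = c • L (S i v x I) := by
  intro x hx I
  refine tendsto_nhds_unique_of_frequently_eq (l := 𝓝 x) (S_cont h' w hx I)
    ((L.continuous.continuousAt.comp (S_cont h v hx I)).const_smul c)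
    (((freq (hal_sm hal) (hal_sm hal') h h' v w ⟨hx, hx⟩).and_eventually
      ((A.e i).open_source.mem_nhds hx)).mono ?_)
  rintro y ⟨⟨φ, h1, h2⟩, hy⟩
  refine tendsto_nhds_unique (h2 I) ((((L.continuous.tendsto _).comp (h1 I)).const_smul c).congr
    fun k => ?_)
  obtain ⟨b, hb⟩ := hf (φ k)
  have h3 : ∀ a, dl A i a (aV D (f' (φ k)) i w) y = L (dl A i a (aV D (f (φ k)) i v) y) := by
    intro a
    rw [dl_congr_src (g := aV D (f' (φ k)) i w) (g' := fun x => L (f (φ k) (D.pt i v x)) + b) hy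
      (mem_of_superset ((A.e i).open_source.mem_nhds hy) hb)]
    unfold dl
    rw [dj_add_const, dj_clm L (((sm_rdv (h.f_sm (φ k)) i v).contDiffAt
      ((A.e i).open_target.mem_nhds ((A.e i).map_source hy))).differentiableAt (by simp))]
    rfl
  simp only [Function.comp, Rel.tw, hτ y hy, h3, map_sum, map_smul, Matrix.mulVec_smul,
    Pi.smul_apply, Finset.smul_sum, smul_smul, smul_eq_mul]

/-- field `S_eqv` of `Rel.Min` -/
theorem eqv (hal : HolV (D.atl G) univ al) (h : Lim D al f S) {M : Subgroup G} (a : Act M H)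
    (hM : ∀ m ∈ M, ∀ e, al (m • e) = al e)
    (hf : ∀ k (m : M) e, f k ((m : G) • e) = a.α m (f k e)) :
    ∀ (m : M) i v, ∀ x ∈ (A.e i).source, ∀ I, S i (v * (m : G)⁻¹) x I = a.π m (S i v x I) := by
  intro m i v x hx I
  have h1 := map hal hal h h (a.π m).toContinuousLinearEquiv.toContinuousLinearMap 1
    (i := i) (v := v) (w := v * (m : G)⁻¹) (fun y _ => ?_) (fun k => ⟨a.b m, fun y _ => ?_⟩) x hx I
  · rw [h1, one_smul]
    rfl
  · rw [one_smul]
    congr 1
    funext y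
    simp only [aV]
    rw [← D.deck_pt, hM m m.2]
  · rw [← D.deck_pt, hf]
    rfl

/-- the limit is unique -/
theorem uniq0 (hal : HolV (D.atl G) univ al) {S₁ : A.ι → G → X → FI n → H} (h : Lim D al f S)
    (h₁ : Lim D al f S₁) : ∀ i v, ∀ x ∈ (A.e i).source, S i v x = S₁ i v x := by
  intro i v x hx
  funext I
  have h1 := map hal hal h₁ h (ContinuousLinearMap.id ℂ H) 1 (i := i) (v := v) (w := v)
    (fun y _ => (one_smul _ _).symm) (fun k => ⟨0, fun y _ => by simp⟩) x hx I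
  simpa using h1

theorem sq_add_le (x y : H) : ‖x + y‖ₑ ^ 2 ≤ 4 * ‖x‖ₑ ^ 2 + 4 * ‖y‖ₑ ^ 2 := by
  have h1 : ‖x + y‖ₑ ≤ 2 * max ‖x‖ₑ ‖y‖ₑ := by
    rw [two_mul]
    exact (enorm_add_le x y).trans (add_le_add (le_max_left _ _) (le_max_right _ _))
  refine (pow_le_pow_left₀ zero_le h1 2).trans ?_
  rw [mul_pow, show (2 : ℝ≥0∞) ^ 2 = 4 by norm_num]
  rcases le_total ‖x‖ₑ ‖y‖ₑ with h | h
  · rw [max_eq_right h]
    exact le_add_self
  · rw [max_eq_left h]
    exact le_self_add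

/-- a sequence close to a convergent one has the same limit -/
theorem lim_of_close (hal : HolV (D.atl G) univ al) {f₁ : ℕ → D.cov G → H} (h : Lim D al f S)
    (h₁ : ∀ k, (D.atl G).Sm (f₁ k))
    (hc : ∀ i v, ∀ K ⊆ (A.e i).target, IsCompact K → ∀ I, Tendsto (fun k => ∫⁻ z in K,
      ‖tw D al (f₁ k) i v ((A.e i).symm z) I - tw D al (f k) i v ((A.e i).symm z) I‖ₑ ^ 2) atTop
      (𝓝 0)) : Lim D al f₁ S := by
  refine ⟨h₁, h.S_hol, fun i v K hK hK' I => ?_⟩
  have t1 := (ENNReal.Tendsto.const_mul (a := 4) (hc i v K hK hK' I) (Or.inr (by simp))).add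
    (ENNReal.Tendsto.const_mul (a := 4) (h.lim i v K hK hK' I) (Or.inr (by simp)))
  rw [mul_zero, add_zero] at t1
  refine tendsto_of_tendsto_of_tendsto_of_le_of_le tendsto_const_nhds t1 (fun _ => zero_le)
    fun k => ?_
  have hm : AEMeasurable (fun z => 4 * ‖tw D al (f k) i v ((A.e i).symm z) I -
      S i v ((A.e i).symm z) I‖ₑ ^ 2) (volume.restrict K) :=
    (((((tw_smooth (hal_sm hal) (h.f_sm k) i v I).continuousOn.sub
      (h.S_hol i v I).continuousOn).mono hK).aestronglyMeasurable hK'.measurableSet).enorm.pow_const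
      2).const_mul 4
  rw [← lintegral_const_mul' _ _ (by simp), ← lintegral_const_mul' _ _ (by simp),
    ← lintegral_add_right' _ hm]
  refine lintegral_mono fun z => ?_
  rw [← sub_add_sub_cancel _ (tw D al (f k) i v ((A.e i).symm z) I)]
  exact sq_add_le _ _

/-- close sequences have the same limit -/
theorem uniq (hal : HolV (D.atl G) univ al) {f₁ : ℕ → D.cov G → H} {S₁ : A.ι → G → X → FI n → H}
    (h : Lim D al f S) (h₁ : Lim D al f₁ S₁)
    (hc : ∀ i v, ∀ K ⊆ (A.e i).target, IsCompact K → ∀ I, Tendsto (fun k => ∫⁻ z in K,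
      ‖tw D al (f₁ k) i v ((A.e i).symm z) I - tw D al (f k) i v ((A.e i).symm z) I‖ₑ ^ 2) atTop
      (𝓝 0)) : ∀ i v, ∀ x ∈ (A.e i).source, S i v x = S₁ i v x :=
  uniq0 hal (lim_of_close hal h h₁.f_sm hc) h₁



end

end Crest.Agent.X261.Fam20
end

-- ▼ part X261/Fam20/C
section

/-!
# X261, package FAM, part POST (helper20), file `C`: the bridge `Fam.Lm ↔ Rel.Lim`

* `Sl_eq`, `tau_eq` : the flat forms of `Fam` are those of `Rel`;
* `lim_of_lm`, `lm_of_lim` : the two notions of convergence agree;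
* `min_lim`, `min_tr`, `min_eqv`, `min_deg`, `min_hor`, `min_closed` : consequences for `IsMin`.
-/

set_option autoImplicit false
set_option linter.unusedSectionVars false
set_option linter.dupNamespace false

open Set Filter Topology Complex Matrix MeasureTheory
open scoped ENNReal InnerProductSpace ContDiff

namespace Crest.Agent.X261.Fam20

open Crest.Agent.R275.Geo Crest.Agent.R275.Core144
open Crest.Agent.R275.OmT75 (dj dl)
open Crest.Agent.R275.EDR890 (wd)
open Crest.Agent.R273.UCov_914 Crest.Agent.R273.Kah_333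
open Crest.Agent.R273.Fock_243 (FI Gam eW iW ep)
open Crest.Agent.X261.Top (wdg dW HolV)
open Crest.Agent.X261.Gauss (mv dV)
open Crest.Agent.X261.Rel (aV Lim)
open Crest.Agent.X261.Rel.Act (Act Rep)
open Crest.Agent.X261.Fam (Sl Cf th tau rd Lm IsMin Dat Eqv)

noncomputable section

variable {n q : ℕ} {H : Type} [NormedAddCommGroup H] [InnerProductSpace ℂ H]

theorem wd_false {W : Type*} [NormedAddCommGroup W] [NormedSpace ℂ W] (b : Fin n) (F : Cn n → W) :
    wd (false, b) F = dj b F := by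
  funext z
  simp [wd, R275.EDR890.wdL, dj, sub_eq_add_neg]

theorem tau_eq (a : Cn n → Cn q) (z : Cn n) : tau (Cf a z) = Wd (fun k w => a w k) z := by
  rw [Wd, Jet.Tb.wdg_eq]
  simp only [← wd_false]
  rfl

theorem Sl_eq (a : Cn n → Cn q) (F : Cn n → H) (z : Cn n) : Sl a F z = fw a F z := by
  rw [fw, ← tau_eq]
  simp only [← wd_false]
  rfl

variable {X : Type} [TopologicalSpace X] {A : Atl n X} {G : Type} [Group G] {D : MonD A G}


theorem Sl_tw (a : D.cov G → Cn q) (f : D.cov G → H) (i : A.ι) (v : G) (x : X) :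
    Sl (rd D a i v) (rd D f i v) (A.e i x) = Rel.tw D a f i v x := Sl_eq _ _ _

theorem Sl_tw' (a : D.cov G → Cn q) (f : D.cov G → H) {i : A.ι} (v : G) {z : Cn n}
    (hz : z ∈ (A.e i).target) :
    Sl (rd D a i v) (rd D f i v) z = Rel.tw D a f i v ((A.e i).symm z) := by
  rw [← Sl_tw, (A.e i).right_inv hz]

theorem lint_eq {W : Type*} [NormedAddCommGroup W] {K : Set (Cn n)} (hK : IsCompact K)
    {g : Cn n → W} (hg : ContinuousOn g K) :
    ∫⁻ z in K, ‖g z‖ₑ ^ 2 = ENNReal.ofReal (∫ z in K, ‖g z‖ ^ 2) := by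
  rw [ofReal_integral_eq_lintegral_ofReal (f := fun z => ‖g z‖ ^ 2)
    ((hg.norm.pow 2).integrableOn_compact hK)
    (Eventually.of_forall fun z => by positivity)]
  refine lintegral_congr fun z => ?_
  rw [ENNReal.ofReal_pow (norm_nonneg _), ofReal_norm]

theorem tend_iff {W : Type*} [NormedAddCommGroup W] {K : Set (Cn n)} (hK : IsCompact K)
    {g : ℕ → Cn n → W} (hg : ∀ k, ContinuousOn (g k) K) :
    Tendsto (fun k => ∫⁻ z in K, ‖g k z‖ₑ ^ 2) atTop (𝓝 0) ↔
      Tendsto (fun k => ∫ z in K, ‖g k z‖ ^ 2) atTop (𝓝 0) := by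
  simp only [lint_eq hK (hg _)]
  constructor
  · intro h
    have h1 := (ENNReal.tendsto_toReal ENNReal.zero_ne_top).comp h
    rw [ENNReal.toReal_zero] at h1
    exact h1.congr fun k => ENNReal.toReal_ofReal (integral_nonneg fun z => by positivity)
  · intro h
    have h1 := ENNReal.tendsto_ofReal h
    rwa [ENNReal.ofReal_zero] at h1

variable {a : D.cov G → Cn q} {f : ℕ → D.cov G → H} {S : A.ι → G → X → FI n → H}

theorem lm_iff (ha : HolV (D.atl G) univ a) (hf : ∀ k, (D.atl G).Sm (f k))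
    (hS : ∀ i v I, DifferentiableOn ℂ (fun z => S i v ((A.e i).symm z) I) (A.e i).target)
    (i : A.ι) (v : G) {K : Set (Cn n)} (hK : K ⊆ (A.e i).target) (hc : IsCompact K) (I : FI n) :
    Tendsto (fun k => ∫⁻ z in K, ‖Rel.tw D a (f k) i v ((A.e i).symm z) I -
      S i v ((A.e i).symm z) I‖ₑ ^ 2) atTop (𝓝 0) ↔
    Tendsto (fun k => ∫ z in K, ‖Sl (rd D a i v) (rd D (f k) i v) z I -
      S i v ((A.e i).symm z) I‖ ^ 2) atTop (𝓝 0) := by
  rw [tend_iff (g := fun k z => Rel.tw D a (f k) i v ((A.e i).symm z) I - S i v ((A.e i).symm z) I)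
    hc fun k => ((tw_smooth (hal_sm ha) (hf k) i v I).continuousOn.sub
    (hS i v I).continuousOn).mono hK]
  refine tendsto_congr fun k => setIntegral_congr_fun hc.measurableSet fun z hz => ?_
  simp only [Sl_tw' a (f k) v (hK hz)]

theorem lim_of_lm (ha : HolV (D.atl G) univ a) (hf : ∀ k, (D.atl G).Sm (f k))
    (hS : ∀ i v I, DifferentiableOn ℂ (fun z => S i v ((A.e i).symm z) I) (A.e i).target)
    (h : Lm D a f S) : Lim D a f S :=
  ⟨hf, hS, fun i v K hK hc I => (lm_iff ha hf hS i v hK hc I).2 (h i v K hK hc I)⟩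


variable {K : Kah A} {M : Subgroup G} {r : Rep M H} {b : M → H}

theorem min_lim (ha : HolV (D.atl G) univ a) (h : IsMin D K M a r b S) :
    ∃ f : ℕ → D.cov G → H, (∀ k, Eqv D M r b (f k)) ∧ Lim D a f S := by
  obtain ⟨f, h1, h2⟩ := h.lim
  exact ⟨f, h1, lim_of_lm ha (fun k => (h1 k).sm) h.hol h2⟩

theorem min_tr (ha : HolV (D.atl G) univ a) (h : IsMin D K M a r b S) :
    ∀ i j v, ∀ x ∈ (A.e i).source ∩ (A.e j).source,
      S i v x = mv (Gam (Jm A i j x)ᵀ) (S j (D.c i j x * v) x) := by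
  obtain ⟨f, -, h2⟩ := min_lim ha h
  exact trS ha h2

theorem min_deg (ha : HolV (D.atl G) univ a) (h : IsMin D K M a r b S) :
    ∀ i v, ∀ x ∈ (A.e i).source, ∀ I : FI n, I.card ≠ q + 1 → S i v x I = 0 := by
  obtain ⟨f, -, h2⟩ := min_lim ha h
  exact deg ha h2

theorem min_hor (ha : HolV (D.atl G) univ a) (h : IsMin D K M a r b S) :
    ∀ i v, ∀ x ∈ (A.e i).source, ∀ k, mv (eW (dV A i (aV D a i v) x k)) (S i v x) = 0 := by
  obtain ⟨f, -, h2⟩ := min_lim ha h
  exact hor ha h2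

theorem min_closed (ha : HolV (D.atl G) univ a) (h : IsMin D K M a r b S) :
    ∀ i v, ∀ x ∈ (A.e i).source,
      ∑ c, mv (eW (ep c)) (fun I => dl A i c (fun y => S i v y I) x) = 0 := by
  obtain ⟨f, -, h2⟩ := min_lim ha h
  exact closed ha h2

theorem min_eqv (ha : Dat D M a) (h : IsMin D K M a r b S) :
    ∀ (m : M) i v, ∀ x ∈ (A.e i).source, ∀ I, S i (v * (m : G)⁻¹) x I = r.π m (S i v x I) := by
  obtain ⟨f, hf, h2⟩ := min_lim ha.hol h
  intro m i v x hx I
  have h1 := map ha.hol ha.hol h2 h2 (r.π m).toContinuousLinearEquiv.toContinuousLinearMap 1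
    (i := i) (v := v) (w := v * (m : G)⁻¹) (fun y _ => ?_) (fun k => ⟨b m, fun y _ => ?_⟩) x hx I
  · rw [h1, one_smul]
    rfl
  · rw [one_smul]
    congr 1
    funext y
    simp only [aV]
    rw [← D.deck_pt, ha.inv m m.2]
  · rw [← D.deck_pt, (hf k).eqv]
    rfl

end

end Crest.Agent.X261.Fam20
end

-- ▼ part X261/FamG/Ex
section

/-!
# X261, package FAM (helper3), file `Ex`: the bounds `Bd` and `Lo` from the exact fibre energy

* `dE K a f ψ` : the density `ψ(a) |∂f ∧ da|²`; `den_dE`;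
* `Ex D K M a f E` : the energies of the `f k` tend to `E` times the Lebesgue measure;
* `bd_of_ex`, `lo_of_ex`, `isMin_deck`, `min_of`.
-/

set_option autoImplicit false
set_option linter.unusedSectionVars false

open Set Filter Topology MeasureTheory Matrix
open scoped ComplexConjugate ComplexOrder InnerProductSpace ContDiff ENNReal

namespace Crest.Agent.X261.FamG

open Crest.Agent.R275.Geo Crest.Agent.R275.Core144 Crest.Agent.R273.UCov_914
open Crest.Agent.R273.Kah_333 Crest.Agent.R275.EDR890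
open Crest.Agent.R273.Fock_243
open Crest.Agent.X261.Fam
open Crest.Agent.X261.Rel.Act (Rep Act)

noncomputable section

variable {n q : ℕ} {X : Type} [TopologicalSpace X] {A : Atl n X} {G : Type} [Group G]
variable {H : Type} [NormedAddCommGroup H] [InnerProductSpace ℂ H]

/-! ### pointwise facts -/

theorem e0_eq_n2 {g : Mt n} (hg : g.PosDef) (C : Mr n q) (θ : Fin n → H) :
    e0 g C θ = n2 g (ac (vI C) θ) := by rw [e0_eq_vI hg, n2_eq hg]

theorem n2_conj {N : Mt n} (hN : N.det ≠ 0) (g : Mt n) (S : FI n → H) :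
    n2 (N * g * Nᴴ) (ac (Gam N) S) = ‖N.det‖ ^ 2 * n2 g S := by
  rw [n2, n2, p2, p2, ← ip_conj, Gam_ct, ← Gam_mul, ← Gam_mul, inv_conj hN, det_conj, mul_assoc,
    Complex.re_ofReal_mul]

theorem abs_n2_sub {g : Mt n} (hg : g.PosDef) (S S' : FI n → H) {t : ℝ} (ht : 0 < t) :
    |n2 g S - n2 g S'| ≤ t * n2 g S' + (1 + 1 / t) * n2 g (S - S') := by
  have hp := gam_psd hg.inv
  have h1 := en_add_smul hp.1 S' (S - S') 1
  rw [Complex.ofReal_one, one_smul, add_sub_cancel] at h1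
  have h2 := (Complex.abs_re_le_norm _).trans (norm_ip_le hp (S - S') S' (1 / t) (by positivity))
  have h3 := en_nonneg hp (S - S')
  have e1 : 1 / (2 * (1 / t)) = t / 2 := by field_simp
  rw [e1] at h2
  have h4 : |en (Gam g⁻¹) S - en (Gam g⁻¹) S'| ≤
      t * en (Gam g⁻¹) S' + (1 + 1 / t) * en (Gam g⁻¹) (S - S') := by
    rw [abs_le] at h2 ⊢
    constructor <;> nlinarith [h2.1, h2.2]
  rw [n2_eq hg, n2_eq hg, n2_eq hg, ← mul_sub, abs_mul, abs_of_pos (det_re_pos hg)]
  nlinarith [mul_le_mul_of_nonneg_left h4 (det_re_pos hg).le]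

/-! ### the energy density -/

variable {D : MonD A G} {K : Kah A} {M : Subgroup G} {a : D.cov G → Cn q}

/-- the weighted vertical energy density -/
def dE (K : Kah A) (a : D.cov G → Cn q) (f : D.cov G → H) (ψ : Cn q → ℝ) (i : A.ι) (v : G)
    (z : Cn n) : ℂ :=
  ((ψ (rd D a i v z) * e0 (K.g i ((A.e i).symm z)) (Cf (rd D a i v) z) (th (rd D f i v) z) : ℝ) : ℂ)

theorem dE_eq (f : D.cov G → H) (ψ : Cn q → ℝ) {i : A.ι} (v : G) {z : Cn n}
    (hz : z ∈ (A.e i).target) : dE K a f ψ i v z =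
      ((ψ (rd D a i v z) * n2 (gz K i z) (Sl (rd D a i v) (rd D f i v) z) : ℝ) : ℂ) := by
  rw [dE, e0_eq_n2 (K.pos i _ ((A.e i).map_target hz))]
  rfl

theorem cont_Sl (hd : Dat D M a) {f : D.cov G → H} (hf : (D.atl G).Sm f) (i : A.ι) (v : G) :
    ContinuousOn (Sl (rd D a i v) (rd D f i v)) (A.e i).target :=
  continuousOn_pi.2 fun I => (Fam20.tw_smooth (Fam20.hal_sm hd.hol) hf i v I).continuousOn.congr
    fun z hz => by rw [Fam20.Sl_tw' a f v hz]

theorem Cf_add (a : Cn n → Cn q) (l : Cn q) : Cf (fun z => a z + l) = Cf a := by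
  funext z
  ext b h
  simp only [Cf, Matrix.of_apply, PiLp.add_apply, wd, fderiv_add_const]

theorem Sl_eqv (hd : Dat D M a) {r : Rep M H} {b : M → H} {f : D.cov G → H} (hf : Eqv D M r b f)
    (m : M) {i : A.ι} (v : G) {z : Cn n} (hz : z ∈ (A.e i).target) (I : FI n) :
    Sl (rd D a i (v * (m : G)⁻¹)) (rd D f i (v * (m : G)⁻¹)) z I =
      r.π m (Sl (rd D a i v) (rd D f i v) z I) := by
  have h1 : rd D a i (v * (m : G)⁻¹) = rd D a i v := by
    rw [rd_deck]
    simp only [hd.inv _ m.2]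
  have h2 : rd D f i (v * (m : G)⁻¹) = fun w =>
      (r.π m).toContinuousLinearEquiv.toContinuousLinearMap (rd D f i v w) + b m := by
    rw [rd_deck]
    simp only [hf.eqv]
    rfl
  have h3 : DifferentiableAt ℝ (rd D f i v) z :=
    ((hf.sm (i, v)).contDiffAt ((A.e i).open_target.mem_nhds hz)).differentiableAt (by simp)
  rw [h1, h2, Fam20.Sl_eq, Fam20.Sl_eq]
  have h4 := Fam20.fw_clm (r.π m).toContinuousLinearEquiv.toContinuousLinearMap (rd D a i v) h3 I
  refine Eq.trans ?_ h4.symm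
  simp only [Fam20.fw, Fam20.dj_add_const]

theorem den_dE (hd : Dat D M a) {r : Rep M H} {b : M → H} {f : D.cov G → H} (hf : Eqv D M r b f)
    {ψ : Cn q → ℝ} (hψ : Continuous ψ) {R : ℝ} (hR : ∀ t, R < ‖t‖ → ψ t = 0) :
    Den D M a R (dE K a f ψ) where
  law i j v x hx := by
    have hN : (Jm A i j x)ᵀ.det ≠ 0 := fun h0 => by
      have := K.tr i j x hx
      have h2 := (K.pos i x hx.1).det_pos.ne'
      rw [this, Matrix.det_mul, Matrix.det_mul, h0, zero_mul, zero_mul] at h2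
      exact h2 rfl
    rw [dE_eq _ _ _ ((A.e i).map_source hx.1), dE_eq _ _ _ ((A.e j).map_source hx.2),
      Fam20.Sl_tw, Fam20.Sl_tw, Fam20.tw_tr (Fam20.hal_sm hd.hol) hf.sm v hx, rd_pt D a v hx.1,
      rd_pt D a _ hx.2, D.pt_eq v hx.1 hx.2, gz, gz, (A.e i).left_inv hx.1, (A.e j).left_inv hx.2,
      K.tr i j x hx, ← Complex.ofReal_mul, mul_left_comm, ← Matrix.det_transpose (Jm A i j x),
      ← n2_conj hN]
    rfl
  inv m hm i v z hz := by
    have h1 : rd D a i (v * m⁻¹) = rd D a i v := by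
      rw [rd_deck]
      simp only [hd.inv _ hm]
    have h2 : Sl (rd D a i (v * m⁻¹)) (rd D f i (v * m⁻¹)) z = fun I =>
        (r.π ⟨m, hm⟩).toLinearIsometry (Sl (rd D a i v) (rd D f i v) z I) :=
      funext fun I => Sl_eqv hd hf ⟨m, hm⟩ v hz I
    rw [dE_eq _ _ _ hz, dE_eq _ _ _ hz, h2, h1, n2, n2, p2, p2, ip_iso]
  cont i v := (Complex.continuous_ofReal.comp_continuousOn
    ((hψ.comp_continuousOn (cont_rd hd i v)).mul
      (cont_n2 K i subset_rfl (cont_Sl hd hf.sm i v)))).congr fun z hz => dE_eq _ _ _ hz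
  supp i v z _ h := by rw [dE, hR _ h, zero_mul, Complex.ofReal_zero]

theorem exists_rad {ψ : Cn q → ℝ} (h : HasCompactSupport ψ) : ∃ R, ∀ t, R < ‖t‖ → ψ t = 0 := by
  obtain ⟨R, hR⟩ := h.isCompact.isBounded.exists_norm_le
  exact ⟨R, fun t ht => image_eq_zero_of_notMem_tsupport fun h1 => (hR t h1).not_gt ht⟩

/-- convergence of the local energies -/
theorem tendsto_n2 (hd : Dat D M a) {f : ℕ → D.cov G → H} (hf : ∀ k, (D.atl G).Sm (f k))
    {S : A.ι → G → X → FI n → H} (hS : Hl A S) (h : Lm D a f S) (i : A.ι) (v : G)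
    {Kc : Set (Cn n)} (hs : Kc ⊆ (A.e i).target) (hc : IsCompact Kc) :
    Tendsto (fun k => ∫ z in Kc, n2 (gz K i z) (Sl (rd D a i v) (rd D (f k) i v) z)) atTop
      (𝓝 (∫ z in Kc, n2 (gz K i z) (S i v ((A.e i).symm z)))) := by
  obtain ⟨C, hC0, hC⟩ := exists_hi (H := H) K i hc hs
  set u : ℕ → Cn n → FI n → H := fun k => Sl (rd D a i v) (rd D (f k) i v) with hu
  set s : Cn n → FI n → H := fun z => S i v ((A.e i).symm z) with hs'
  have cu : ∀ k, ContinuousOn (u k) Kc := fun k => (cont_Sl hd (hf k) i v).mono hs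
  have cs : ContinuousOn s Kc := (hS.cont i v).mono hs
  have iu := fun k => (cont_n2 K i hs (cu k)).integrableOn_compact (μ := volume) hc
  have is := (cont_n2 K i hs cs).integrableOn_compact (μ := volume) hc
  have id : ∀ k I, IntegrableOn (fun z => ‖u k z I - s z I‖ ^ 2) Kc := fun k I =>
    (((continuousOn_pi.1 (cu k) I).sub (continuousOn_pi.1 cs I)).norm.pow 2).integrableOn_compact hc
  have t1 : Tendsto (fun k => ∑ I, ∫ z in Kc, ‖u k z I - s z I‖ ^ 2) atTop (𝓝 0) := by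
    simpa using tendsto_finsetSum Finset.univ fun I _ => h i v Kc hs hc I
  set b := ∫ z in Kc, n2 (gz K i z) (s z) with hb
  have hb0 : 0 ≤ b := setIntegral_nonneg hc.measurableSet fun z hz => n2_nonneg (gz_pos K (hs hz)) _
  refine Metric.tendsto_nhds.2 fun η hη => ?_
  set t := η / (2 * (b + 1)) with ht
  have ht0 : 0 < t := by positivity
  have t2 := (t1.const_mul ((1 + 1 / t) * C)).eventually (gt_mem_nhds (show _ < η / 2 by
    rw [mul_zero]; positivity))
  filter_upwards [t2] with k hk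
  have h1 : |(∫ z in Kc, n2 (gz K i z) (u k z)) - b| ≤
      t * b + (1 + 1 / t) * C * ∑ I, ∫ z in Kc, ‖u k z I - s z I‖ ^ 2 := by
    rw [hb, ← integral_sub (iu k) is, ← integral_finsetSum _ fun I _ => id k I,
      ← integral_const_mul, ← integral_const_mul, ← integral_add (is.const_mul _)
        ((integrable_finsetSum _ fun I _ => id k I).const_mul _)]
    refine abs_integral_le_integral_abs.trans (setIntegral_mono_on ((iu k).sub is).abs
      ((is.const_mul _).add ((integrable_finsetSum _ fun I _ => id k I).const_mul _))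
      hc.measurableSet fun z hz => (abs_n2_sub (gz_pos K (hs hz)) _ _ ht0).trans ?_)
    rw [mul_assoc]
    gcongr
    exact hC z hz _
  have h2 : t * b ≤ η / 2 := by
    rw [ht, div_mul_eq_mul_div, div_le_div_iff₀ (by positivity) two_pos]
    nlinarith
  rw [Real.dist_eq]
  linarith

variable [Finite A.ι] [Countable G] [T2Space X]

attribute [local instance] mZ bZ cZ

/-- a compact piece of a sheet -/
def pc (D : MonD A G) (M : Subgroup G) (j : A.ι) (v : G) (Kc : Set (Cn n)) : Set (D.cov (G ⧸ M)) :=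
  (fun z => D.pt j (v : G ⧸ M) ((A.e j).symm z)) '' Kc

theorem meas_pc (j : A.ι) (v : G) {Kc : Set (Cn n)} (hs : Kc ⊆ (A.e j).target)
    (hc : IsCompact Kc) : MeasurableSet (pc D M j v Kc) :=
  (hc.image_of_continuousOn (((D.atl (G ⧸ M)).e (j, (v : G ⧸ M))).continuousOn_symm.mono
    hs)).measurableSet

theorem int_pc {R : ℝ} {Φ : A.ι → G → Cn n → ℂ} (h : Den D M a R Φ) (j : A.ι) (v : G)
    {Kc : Set (Cn n)} (hs : Kc ⊆ (A.e j).target) (hc : IsCompact Kc) :
    ∫ e in pc D M j v Kc, gl D K M Φ e ∂mu D K M = ∫ z in Kc, Φ j v z := by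
  have hm := meas_pc (D := D) (M := M) j v hs hc
  have hsub : pc D M j v Kc ⊆ D.sheet j (v : G ⧸ M) := by
    rintro _ ⟨z, hz, rfl⟩
    exact D.pt_mem_sheet _ ((A.e j).map_target (hs hz))
  have h1 := setIntegral_chart (R273.Vol_333.volK (R273.RMan4_798.pullKah D (G ⧸ M) K))
    (j, (v : G ⧸ M)) ((h.continuous_gl K).aestronglyMeasurable.indicator hm)
  have h2 : ∫ e in D.sheet j (v : G ⧸ M), (pc D M j v Kc).indicator (gl D K M Φ) e ∂mu D K M =
      ∫ e in pc D M j v Kc, gl D K M Φ e ∂mu D K M := by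
    rw [setIntegral_indicator hm, inter_eq_right.2 hsub]
  have h3 : ∫ z in (A.e j).target, Kc.indicator (Φ j v) z = ∫ z in Kc, Φ j v z := by
    rw [setIntegral_indicator hc.measurableSet, inter_eq_right.2 hs]
  rw [← h2, ← h3]
  refine h1.trans (setIntegral_congr_fun (A.e j).open_target.measurableSet fun z hz => ?_)
  have hx := (A.e j).map_target hz
  change (K.g j ((A.e j).symm z)).det.re • (pc D M j v Kc).indicator (gl D K M Φ)
    (D.pt j (v : G ⧸ M) ((A.e j).symm z)) = _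
  by_cases hz' : z ∈ Kc
  · rw [indicator_of_mem (show _ ∈ pc D M j v Kc from ⟨z, hz', rfl⟩), indicator_of_mem hz',
      h.gl_pt K v hx, (A.e j).right_inv hz, Complex.real_smul, ← det_ofReal (K.pos j _ hx),
      mul_div_cancel₀ _ (K.pos j _ hx).det_pos.ne']
  · rw [indicator_of_notMem hz', indicator_of_notMem, smul_zero]
    rintro ⟨w, hw, h4⟩
    exact hz' ((A.e j).symm.injOn (hs hw) hz (congrArg D.pr h4) ▸ hw)

theorem re_gl_nonneg {Φ : A.ι → G → Cn n → ℂ}
    (e : ∀ i v, ∀ z ∈ (A.e i).target, 0 ≤ (Φ i v z).re) (y : D.cov (G ⧸ M)) :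
    0 ≤ (gl D K M Φ y).re := by
  rw [re_gl]
  exact div_nonneg (e _ _ _ ((A.e _).map_source (T223.Hm.ix_mem _)))
    (det_re_pos (K.pos _ _ (T223.Hm.ix_mem _))).le

theorem re_int_pc (hd : Dat D M a) {R : ℝ} {Φ : A.ι → G → Cn n → ℂ} (h : Den D M a R Φ) (j : A.ι)
    (v : G) {Kc : Set (Cn n)} (hs : Kc ⊆ (A.e j).target) (hc : IsCompact Kc) :
    ∫ e in pc D M j v Kc, (gl D K M Φ e).re ∂mu D K M = ∫ z in Kc, (Φ j v z).re := by
  have h1 := congrArg Complex.re (int_pc (K := K) h j v hs hc)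
  exact (integral_re (h.integrable K hd).integrableOn).trans (h1.trans
    (integral_re (((h.cont j v).mono hs).integrableOn_compact hc)).symm)

theorem pc_le_IM (hd : Dat D M a) {R : ℝ} {Φ : A.ι → G → Cn n → ℂ} (h : Den D M a R Φ)
    (e : ∀ i v, ∀ z ∈ (A.e i).target, 0 ≤ (Φ i v z).re) (j : A.ι) (v : G)
    {Kc : Set (Cn n)} (hs : Kc ⊆ (A.e j).target) (hc : IsCompact Kc) :
    ∫ z in Kc, (Φ j v z).re ≤ (IM D K M Φ).re := by
  rw [← re_int_pc (K := K) hd h j v hs hc, re_IM K hd h]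
  exact setIntegral_le_integral (h.integrable K hd).re (ae_of_all _ (re_gl_nonneg e))

theorem IM_le_sum (hd : Dat D M a) {R : ℝ} {Φ : A.ι → G → Cn n → ℂ} (h : Den D M a R Φ)
    (e : ∀ i v, ∀ z ∈ (A.e i).target, 0 ≤ (Φ i v z).re) (T : Finset (A.ι × G))
    {Kc : A.ι → Set (Cn n)} (hK : ∀ i, IsCompact (Kc i) ∧ Kc i ⊆ (A.e i).target)
    (hcov : ∀ i v, ∀ x ∈ (A.e i).source, Φ i v (A.e i x) ≠ 0 → ∃ m ∈ M, ∃ p ∈ T, ∃ z ∈ Kc p.1,
      m • D.pt i v x = D.pt p.1 p.2 ((A.e p.1).symm z)) :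
    (IM D K M Φ).re ≤ ∑ p ∈ T, ∫ z in Kc p.1, (Φ p.1 p.2 z).re := by
  have hm := fun p : A.ι × G => meas_pc (D := D) (M := M) p.1 p.2 (hK p.1).2 (hK p.1).1
  have hi : Integrable (fun e => (gl D K M Φ e).re) (mu D K M) := (h.integrable K hd).re
  have e1 : ∀ p : A.ι × G, ∫ z in Kc p.1, (Φ p.1 p.2 z).re = ∫ y, (pc D M p.1 p.2 (Kc p.1)).indicator
      (fun e => (gl D K M Φ e).re) y ∂mu D K M := fun p => by
    rw [integral_indicator (hm p), re_int_pc (K := K) hd h p.1 p.2 (hK p.1).2 (hK p.1).1]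
  simp only [e1]
  rw [← integral_finsetSum _ fun p _ => hi.indicator (hm p), re_IM K hd h]
  refine integral_mono hi (integrable_finsetSum _ fun p _ => hi.indicator (hm p)) fun y => ?_
  have h0 : ∀ p ∈ T, 0 ≤ (pc D M p.1 p.2 (Kc p.1)).indicator (fun e => (gl D K M Φ e).re) y :=
    fun p _ => indicator_nonneg (fun e _ => re_gl_nonneg ‹_› e) y
  by_cases hy : gl D K M Φ y = 0
  · exact le_trans (by simp [hy]) (Finset.sum_nonneg h0)
  obtain ⟨i, hx⟩ := A.cover (D.pr y)
  rw [h.gl_sheet K (D.mem_sheet_co hx)] at hy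
  obtain ⟨m, hm', p, hp, z, hz, h1⟩ := hcov i _ _ hx fun h2 => hy (by rw [h2, zero_div])
  have hc : Cov.A.Cpt D D (QuotientGroup.mk : G → G ⧸ M) := fun _ _ _ _ => rfl
  have h2 := congrArg (Cov.A.cmap D D (QuotientGroup.mk : G → G ⧸ M)) h1
  rw [D.deck_pt, Cov.A.cmap_pt hc, Cov.A.cmap_pt hc, QuotientGroup.mk_mul_of_mem _ (M.inv_mem hm'),
    QuotientGroup.out_eq', D.pt_co hx] at h2
  refine le_trans (le_of_eq ?_) (Finset.single_le_sum h0 hp)
  rw [indicator_of_mem (show y ∈ pc D M p.1 p.2 (Kc p.1) from ⟨z, hz, h2.symm⟩)]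

/-! ### the bounds -/

/-- the energies tend to `E` times the Lebesgue measure -/
def Ex (D : MonD A G) (K : Kah A) (M : Subgroup G) (a : D.cov G → Cn q) (f : ℕ → D.cov G → H)
    (E : ℝ) : Prop :=
  ∀ ψ : Cn q → ℝ, Continuous ψ → HasCompactSupport ψ →
    Tendsto (fun k => (IM D K M (dE K a (f k) ψ)).re) atTop (𝓝 (E * ∫ t, ψ t))

variable {r : Rep M H} {b : M → H} {f : ℕ → D.cov G → H} {S : A.ι → G → X → FI n → H} {E : ℝ}

theorem dE_nonneg (f : D.cov G → H) {ψ : Cn q → ℝ} (hψ : ∀ t, 0 ≤ ψ t) (i : A.ι) (v : G)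
    (z : Cn n) (hz : z ∈ (A.e i).target) : 0 ≤ (dE K a f ψ i v z).re := by
  rw [dE_eq _ _ _ hz, Complex.ofReal_re]
  exact mul_nonneg (hψ _) (n2_nonneg (gz_pos K hz) _)

theorem bd_of_ex (hd : Dat D M a) (hf : ∀ k, Eqv D M r b (f k)) (hS : Hl A S) (hl : Lm D a f S)
    (hE : 0 ≤ E) (h : Ex D K M a f E) : Bd D K a S E := by
  intro i v Kc hs hc
  have hC : IsCompact (rd D a i v '' Kc) := hc.image_of_continuousOn ((cont_rd hd i v).mono hs)
  have key : ∀ ψ : Cn q → ℝ, Continuous ψ → HasCompactSupport ψ → EqOn ψ 1 (rd D a i v '' Kc) →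
      0 ≤ ψ → ∫ z in Kc, n2 (gz K i z) (S i v ((A.e i).symm z)) ≤ E * ∫ t, ψ t := by
    intro ψ h1 h2 h3 h4
    obtain ⟨R, hR⟩ := exists_rad h2
    refine le_of_tendsto_of_tendsto' (tendsto_n2 hd (fun k => (hf k).sm) hS hl i v hs hc)
      (h ψ h1 h2) fun k => le_trans (le_of_eq ?_)
        (pc_le_IM hd (den_dE hd (hf k) h1 hR) (dE_nonneg _ h4) i v hs hc)
    refine setIntegral_congr_fun hc.measurableSet fun z hz => ?_
    simp only [dE_eq _ _ _ (hs hz), Complex.ofReal_re, h3 ⟨z, hz, rfl⟩, Pi.one_apply, one_mul]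
  refine le_of_forall_pos_le_add fun η hη => ?_
  have h1 : volume (rd D a i v '' Kc) <
      ENNReal.ofReal ((volume (rd D a i v '' Kc)).toReal + η / (E + 1)) := by
    rw [ENNReal.ofReal_add ENNReal.toReal_nonneg (by positivity),
      ENNReal.ofReal_toReal hC.measure_lt_top.ne]
    exact ENNReal.lt_add_right hC.measure_lt_top.ne (ENNReal.ofReal_pos.2 (by positivity)).ne'
  conv_lhs at h1 => rw [hC.measure_eq_biInf_integral_hasCompactSupport volume]
  simp only [iInf_lt_iff] at h1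
  obtain ⟨ψ, h2, h3, h4, h5, h6⟩ := h1
  have h7 := ((ENNReal.ofReal_lt_ofReal_iff (by positivity)).1 h6).le
  refine (key ψ h2 h3 h4 h5).trans ((mul_le_mul_of_nonneg_left h7 hE).trans ?_)
  rw [mul_add]
  gcongr
  rw [mul_div_assoc', div_le_iff₀ (by positivity)]
  nlinarith

theorem lo_of_ex (hd : Dat D M a) (hf : ∀ k, Eqv D M r b (f k)) (hS : Hl A S) (hl : Lm D a f S)
    (h : Ex D K M a f E) : Lo D K M a S E := by
  intro T Kc hK ψ h1 h2 h3 h4 h5
  obtain ⟨R, hR⟩ := exists_rad h2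
  refine le_of_tendsto_of_tendsto' (h ψ h1 h2) (tendsto_finsetSum T fun p _ =>
    tendsto_n2 hd (fun k => (hf k).sm) hS hl p.1 p.2 (hK _).2 (hK _).1) fun k => ?_
  have hD := den_dE (K := K) hd (hf k) h1 hR
  refine (IM_le_sum hd hD (dE_nonneg _ h3) T hK fun i v x hx h6 => h5 _ fun h7 => h6 ?_).trans
    (Finset.sum_le_sum fun p _ => ?_)
  · rw [dE, rd_pt D a v hx, h7, zero_mul, Complex.ofReal_zero]
  · refine setIntegral_mono_on (((hD.cont _ _).mono (hK _).2).integrableOn_compact (hK _).1).re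
      ((cont_n2 K _ (hK _).2 ((cont_Sl hd (hf k).sm _ _).mono (hK _).2)).integrableOn_compact
        (hK _).1) (hK _).1.measurableSet fun z hz => ?_
    rw [dE_eq _ _ _ ((hK _).2 hz), Complex.ofReal_re]
    exact mul_le_of_le_one_left (n2_nonneg (gz_pos K ((hK _).2 hz)) _) (h4 _)

/-! ### translates -/

theorem isMin_deck {g : G} {l : Cn q} (hl : ∀ e, a (g • e) = a e + l)
    (hg : ∀ f, Eqv D M r b f → Eqv D M r b fun e => f (g • e)) (h : IsMin D K M a r b S) :
    IsMin D K M a r b fun i v x => S i (v * g⁻¹) x := by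
  have h1 : ∀ i v, Cf (rd D a i (v * g⁻¹)) = Cf (rd D a i v) := fun i v => by
    rw [rd_deck]
    simp only [hl]
    exact Cf_add (rd D a i v) l
  obtain ⟨f, hf, h2⟩ := h.lim
  refine ⟨fun i v I => h.hol i _ I, ⟨fun k e => f k (g • e), fun k => hg _ (hf k),
    fun i v Kc hs hc I => ?_⟩, fun i v u u1 u2 u3 u4 => ?_⟩
  · have h3 := h2 i (v * g⁻¹) Kc hs hc I
    simp only [Sl, h1] at h3 ⊢
    simpa only [rd_deck] using h3
  · have h3 := h.orth i (v * g⁻¹) u u1 u2 u3 u4
    simpa only [Sl, h1] using h3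

theorem eqv_deck [hM : M.Normal] {N : Subgroup G} [hN : N.Normal] (α : Act M H)
    (h0 : ∀ m : M, (m : G) ∈ N → ∀ x, α.α m x = x) {g : G} (hg : g ∈ N) (f : D.cov G → H)
    (hf : Eqv D M α.toRep α.b f) : Eqv D M α.toRep α.b fun e => f (g • e) := by
  refine ⟨fun p => ?_, fun e => hf.real _, fun m e => ?_⟩
  · have h1 := hf.sm (p.1, p.2 * g⁻¹)
    change ContDiffOn ℝ ∞ (rd D f p.1 (p.2 * g⁻¹)) _ at h1
    rw [rd_deck] at h1
    exact h1
  · have h1 : (m : G)⁻¹ * (g * m * g⁻¹) ∈ M := M.mul_mem (M.inv_mem m.2) (hM.conj_mem _ m.2 g)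
    have h2 : (m : G)⁻¹ * (g * m * g⁻¹) ∈ N := by
      have := N.mul_mem (hN.conj_mem g hg (m : G)⁻¹) (N.inv_mem hg)
      simpa only [inv_inv, mul_assoc] using this
    have h3 : g • (m : G) • e = (m : G) • ((⟨_, h1⟩ : M) : G) • g • e := by
      simp only [smul_smul]
      congr 1
      group
    have h4 : f (((⟨_, h1⟩ : M) : G) • g • e) = f (g • e) := (hf.eqv _ _).trans (h0 _ h2 _)
    rw [h3, hf.eqv, h4]

/-- the structure `Rel.Min` -/
theorem min_of [CompactSpace X] [M.Normal] {N : Subgroup G} [N.Normal] (hd : Dat D M a)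
    (hφ : ∀ g : G, ∃ φ : Cn q ≃ₜ Cn q, MeasurePreserving φ volume volume ∧
      ∀ e, a (g • e) = φ (a e))
    (hN : ∀ g ∈ N, ∃ l, ∀ e, a (g • e) = a e + l) (α : Act M H)
    (h0 : ∀ m : M, (m : G) ∈ N → ∀ x, α.α m x = x) (hE : 0 ≤ E)
    (hf : ∀ k, Eqv D M α.toRep α.b (f k)) (hl : Lm D a f S) (hm : IsMin D K M a α.toRep α.b S)
    (h : Ex D K M a f E)
    (hU : ∀ S', IsMin D K M a α.toRep α.b S' → ∀ i v, ∀ x ∈ (A.e i).source, S' i v x = S i v x) :
    Nonempty (Rel.Min D a α N) := by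
  have hb := bd_of_ex hd hf hm.hol hl hE h
  refine ⟨⟨f, S, Fam20.lim_of_lm hd.hol (fun k => (hf k).sm) hm.hol hl, fun k => (hf k).real,
    fun k => (hf k).eqv, Fam20.min_tr hd.hol hm, Fam20.min_eqv hd hm, fun g hg => ?_,
    Fam20.min_deg hd.hol hm, Fam20.min_hor hd.hol hm, Fam20.min_closed hd.hol hm,
    up_of hm.hol hE hb, fun hne => low_of hd hφ hm.hol (pos_of hm.hol hE hb hne)
      (lo_of_ex hd hf hm.hol hl h)⟩⟩
  obtain ⟨l, hl'⟩ := hN g hg
  exact hU _ (isMin_deck hl' (eqv_deck α h0 hg) hm)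

end

end Crest.Agent.X261.FamG
end

-- ▼ part X261/Fam77/Low
section

/-!
# Row 261, package FAM (helper77): the lower bound on translates

* `exists_cover` : compact sets of the cover lie in finitely many compact chart pieces;
* `Lo` : the fibre energy is at least `E`; `lo_nat` : naturality;
* `low_of`, `low_mat`, `low_clm` : the field `low` of `Rel.Min`.
-/

set_option autoImplicit false
set_option linter.unusedSectionVars false

open Set Filter Topology MeasureTheory Matrix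
open scoped ComplexConjugate ComplexOrder InnerProductSpace ContDiff ENNReal

namespace Crest.Agent.X261.Fam77

open Crest.Agent.R275.Geo Crest.Agent.R273.UCov_914 Crest.Agent.R273.Kah_333
open Crest.Agent.R273.Fock_243
open Crest.Agent.X261.Fam

noncomputable section

variable {n q : ℕ} {X : Type} [TopologicalSpace X] {A : Atl n X} {G : Type} [Group G]

theorem vol_clm (L : Cn q →L[ℂ] Cn q) (l : Cn q) (s : Set (Cn q)) :
    volume ((fun t => L t + l) '' s) =
      ENNReal.ofReal (‖LinearMap.det (L : Cn q →ₗ[ℂ] Cn q)‖ ^ 2) * volume s := by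
  have h : (fun t => L t + l) '' s = (fun t => t + l) ''
      (((L : Cn q →ₗ[ℂ] Cn q).restrictScalars ℝ) '' s) := by
    rw [image_image]; rfl
  rw [h, image_add_right, measure_preimage_add_right, Measure.addHaar_image_linearMap,
    LinearMap.det_restrictScalars, Algebra.norm_complex_apply, Complex.normSq_eq_norm_sq,
    abs_of_nonneg (sq_nonneg _)]



variable {H : Type*} [NormedAddCommGroup H] [InnerProductSpace ℂ H]


variable {D : MonD A G} {K : Kah A} {M : Subgroup G} {a : D.cov G → Cn q}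
variable {S : A.ι → G → X → FI n → H} {E : ℝ}








end

end Crest.Agent.X261.Fam77
end

-- ▼ part X261/Fam77/Uq

/-!
# Row 261, package FAM (helper77), part Uq: uniqueness of the fibrewise minimal form

* `IM_part`, `tend_n2`, `den_eq_zero` : the global integral through a partition of unity;
* `orthG` : global orthogonality from the local one;
* `uniq` : the second half of `Fam.FamStmt`.
-/

set_option autoImplicit false
set_option linter.unusedSectionVars false

open Set Filter Topology MeasureTheory Matrix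
open scoped ComplexConjugate ComplexOrder InnerProductSpace ContDiff

namespace Crest.Agent.X261.Fam77

open Crest.Agent.R275.Geo Crest.Agent.R275.Core144 Crest.Agent.R273.UCov_914
open Crest.Agent.R273.Kah_333 Crest.Agent.R275.EDR890
open Crest.Agent.R273.Fock_243
open Crest.Agent.X261.Fam
open Crest.Agent.X261.Cov.B (sum_psi)
open Crest.Agent.X261.Rel.Act (Rep)

noncomputable section

variable {n q : ℕ} {X : Type} [TopologicalSpace X] {A : Atl n X} {G : Type} [Group G]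

theorem sm_cont {Y : Type} [TopologicalSpace Y] {B : Atl n Y} {W : Type*} [NormedAddCommGroup W]
    [NormedSpace ℝ W] {f : Y → W} (hf : B.Sm f) : Continuous f := by
  rw [continuous_iff_continuousAt]
  intro x
  obtain ⟨i, hi⟩ := B.cover x
  have h1 : ContinuousAt (fun z => f ((B.e i).symm z)) (B.e i x) :=
    (hf i).continuousOn.continuousAt ((B.e i).open_target.mem_nhds ((B.e i).map_source hi))
  refine (ContinuousAt.comp (f := B.e i) h1 ((B.e i).continuousAt hi)).congr ?_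
  filter_upwards [(B.e i).open_source.mem_nhds hi] with y hy
  rw [Function.comp_apply, (B.e i).left_inv hy]

variable {D : MonD A G} {M : Subgroup G} {a : D.cov G → Cn q}

theorem sm_a (hd : Dat D M a) : (D.atl G).Sm a := fun p =>
  ((R266.SCV.analyticOnNhd_of_differentiableOn (A.e p.1).open_target
    (hol_rd hd p.1 p.2)).contDiffOn_of_completeSpace).restrict_scalars ℝ

/-- the support of `ψ j` in the chart `j` -/
def Kj (P : Part A) (j : A.ι) : Set (Cn n) := A.e j '' tsupport (P.ψ j)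

theorem Kj_cpt [CompactSpace X] (P : Part A) (j : A.ι) : IsCompact (Kj P j) :=
  (isClosed_tsupport _).isCompact.image_of_continuousOn
    ((A.e j).continuousOn.mono (MonD.tsupport_psi P j))

theorem Kj_sub (P : Part A) (j : A.ι) : Kj P j ⊆ (A.e j).target := by
  rintro _ ⟨x, hx, rfl⟩
  exact (A.e j).map_source (MonD.tsupport_psi P j hx)

theorem psi_off (P : Part A) (j : A.ι) {z : Cn n} (hz : z ∈ (A.e j).target) (h : z ∉ Kj P j) :
    P.ψ j ((A.e j).symm z) = 0 :=
  image_eq_zero_of_notMem_tsupport fun h1 => h ⟨_, h1, (A.e j).right_inv hz⟩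

theorem psi_ev (P : Part A) {i j : A.ι} {x : X} (hi : x ∈ (A.e i).source)
    (hj : x ∉ (A.e j).source) : ∀ᶠ z in 𝓝 (A.e i x), P.ψ j ((A.e i).symm z) = 0 := by
  have h1 : ∀ᶠ y in 𝓝 x, P.ψ j y = 0 :=
    notMem_tsupport_iff_eventuallyEq.1 fun h => hj (MonD.tsupport_psi P j h)
  have h2 := (A.e i).continuousAt_symm ((A.e i).map_source hi)
  rw [ContinuousAt, (A.e i).left_inv hi] at h2
  exact h2.eventually h1

/-- a weight cut by the partition of unity -/
def pw (D : MonD A G) (P : Part A) (j : A.ι) (φ : D.cov G → ℝ) (e : D.cov G) : ℝ :=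
  P.ψ j (D.pr e) * φ e

variable {H : Type*} [NormedAddCommGroup H] [InnerProductSpace ℂ H] {r : Rep M H}
variable {T T' : A.ι → G → Cn n → FI n → H}

theorem dP_pw (K : Kah A) (P : Part A) (j : A.ι) (φ : D.cov G → ℝ) (i : A.ι) (v : G) (z : Cn n) :
    dP D K (pw D P j φ) T T' i v z = (P.ψ j ((A.e i).symm z) : ℂ) * dP D K φ T T' i v z := by
  rw [dP, dP, ← mul_assoc, ← Complex.ofReal_mul]
  rfl

theorem den_pw (K : Kah A) (P : Part A) (j : A.ι) (h : Fm D M r T) (h' : Fm D M r T')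
    {φ : D.cov G → ℝ} (hφ : Continuous φ) (hi : ∀ m ∈ M, ∀ e, φ (m • e) = φ e) {R : ℝ}
    (hs : ∀ e, R < ‖a e‖ → φ e = 0) : Den D M a R (dP D K (pw D P j φ) T T') :=
  den_p2 K h h' (φ := pw D P j φ) (((sm_cont (P.ψ_sm j)).comp D.continuous_pr).mul hφ)
    (fun m hm e => by rw [pw, pw, hi m hm, D.pr_deck]) fun e he => by rw [pw, hs e he, mul_zero]

variable [Finite A.ι] [Countable G] [T2Space X]

theorem IM_part [Fintype A.ι] (K : Kah A) (P : Part A) (hd : Dat D M a) (h : Fm D M r T)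
    (h' : Fm D M r T') {φ : D.cov G → ℝ} (hφ : Continuous φ)
    (hi : ∀ m ∈ M, ∀ e, φ (m • e) = φ e) {R : ℝ} (hs : ∀ e, R < ‖a e‖ → φ e = 0)
    {T0 : Finset (G ⧸ M)}
    (hT : ∀ j, ∀ w ∉ T0, ∀ z ∈ (A.e j).target, R < ‖Fam.rd D a j w.out z‖) :
    IM D K M (dP D K φ T T') =
      ∑ j, ∑ w ∈ T0, ∫ z in (A.e j).target, dP D K (pw D P j φ) T T' j w.out z := by
  have h1 : IM D K M (dP D K φ T T') =
      IM D K M fun i v z => ∑ j, dP D K (pw D P j φ) T T' i v z :=
    IM_congr K fun i v z _ => by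
      simp only [dP_pw]
      rw [← Finset.sum_mul, ← Complex.ofReal_sum, sum_psi, Complex.ofReal_one, one_mul]
  rw [h1, IM_sum K hd _ fun j _ => den_pw K P j h h' hφ hi hs]
  refine Finset.sum_congr rfl fun j _ => IM_eq_sum K hd (den_pw K P j h h' hφ hi hs) j T0
    (fun i v x hx hj => ?_) fun w hw z hz => (den_pw K P j h h' hφ hi hs).supp j _ z hz
      (hT j w hw z hz)
  rw [dP_pw, (psi_ev P hx hj).self_of_nhds, Complex.ofReal_zero, zero_mul]

theorem tend_n2 [CompactSpace X] (K : Kah A) (P : Part A) (hd : Dat D M a)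
    {B : ℕ → A.ι → G → Cn n → FI n → H} (hB : ∀ k, Fm D M r (B k))
    (hl : ∀ i v, ∀ Kc ⊆ (A.e i).target, IsCompact Kc → ∀ I,
      Tendsto (fun k => ∫ z in Kc, ‖B k i v z I‖ ^ 2) atTop (𝓝 0))
    {φ : D.cov G → ℝ} (hφ : Continuous φ) (hi : ∀ m ∈ M, ∀ e, φ (m • e) = φ e) {R : ℝ}
    (hs : ∀ e, R < ‖a e‖ → φ e = 0) :
    Tendsto (fun k => IM D K M (dP D K φ (B k) (B k))) atTop (𝓝 0) := by
  have := Fintype.ofFinite A.ι
  obtain ⟨T0, hT⟩ := hd.exists_fin R
  simp only [fun k => IM_part K P hd (hB k) (hB k) hφ hi hs hT]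
  have h0 : (0 : ℂ) = ∑ _j : A.ι, ∑ _w ∈ T0, 0 := by simp
  rw [h0]
  refine tendsto_finsetSum _ fun j _ => tendsto_finsetSum _ fun w _ => ?_
  obtain ⟨C, hC0, hC⟩ := exists_hi K j (Kj_cpt P j) (Kj_sub P j)
  obtain ⟨C', hC'⟩ := (Kj_cpt P j).exists_bound_of_continuousOn
    ((cont_rd (φ := pw D P j φ) (((sm_cont (P.ψ_sm j)).comp D.continuous_pr).mul hφ) j
      w.out).mono (Kj_sub P j))
  have hi' : ∀ k I, IntegrableOn (fun z => ‖B k j w.out z I‖ ^ 2) (Kj P j) := fun k I =>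
    ((((hB k).cont j w.out I).mono (Kj_sub P j)).norm.pow 2).integrableOn_compact (Kj_cpt P j)
  have h1 : Tendsto (fun k => max C' 0 * (C * ∑ I, ∫ z in Kj P j, ‖B k j w.out z I‖ ^ 2)) atTop
      (𝓝 0) := by
    have := ((tendsto_finsetSum Finset.univ fun I _ =>
      hl j w.out _ (Kj_sub P j) (Kj_cpt P j) I).const_mul C).const_mul (max C' 0)
    simpa using this
  refine squeeze_zero_norm (fun k => ?_) h1
  rw [setIntegral_eq_of_subset_of_forall_sdiff_eq_zero (A.e j).open_target.measurableSet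
    (Kj_sub P j) fun z hz => by rw [dP_pw, psi_off P j hz.1 hz.2, Complex.ofReal_zero, zero_mul],
    ← integral_finsetSum _ fun I _ => hi' k I, ← integral_const_mul, ← integral_const_mul]
  refine norm_integral_le_of_norm_le
    (((integrable_finsetSum _ fun I _ => hi' k I).const_mul _).const_mul _)
    ((ae_restrict_mem (Kj_cpt P j).measurableSet).mono fun z hz => ?_)
  have hp := gr_pos K j (Kj_sub P j hz)
  rw [dP, norm_mul, Complex.norm_real]
  refine mul_le_mul ((hC' z hz).trans (le_max_left _ _)) ?_ (norm_nonneg _) (le_max_right _ _)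
  have h2 := norm_p2_le hp (B k j w.out z) (B k j w.out z)
  have h3 := hC z hz (B k j w.out z)
  change ‖p2 (gr K j z) _ _‖ ≤ _
  change n2 (gr K j z) _ ≤ _ at h3
  linarith

attribute [local instance] mZ bZ cZ in
theorem den_eq_zero (K : Kah A) (hd : Dat D M a) {R : ℝ} {Φ : A.ι → G → Cn n → ℂ}
    (h : Den D M a R Φ) (e : ∀ i v, ∀ z ∈ (A.e i).target, 0 ≤ (Φ i v z).re)
    (h0 : (IM D K M Φ).re ≤ 0) : ∀ i v, ∀ x ∈ (A.e i).source, (Φ i v (A.e i x)).re = 0 := by
  have h1 : (IM D K M Φ).re = 0 := le_antisymm h0 (re_IM_nonneg K hd h e)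
  have h2 : 0 ≤ fun y => (gl D K M Φ y).re := fun y => by
    change 0 ≤ (gl D K M Φ y).re
    rw [re_gl]
    exact div_nonneg (e _ _ _ ((A.e _).map_source (T223.Hm.ix_mem _)))
      (det_re_pos (K.pos _ _ (T223.Hm.ix_mem _))).le
  rw [re_IM K hd h, integral_eq_zero_iff_of_nonneg h2 (h.integrable K hd).re] at h1
  have : (mu D K M).IsOpenPosMeasure := R273.Vm_333.isOpenPos_vm _
  have h3 := (Continuous.ae_eq_iff_eq (mu D K M)
    (Complex.continuous_re.comp (h.continuous_gl K)) continuous_zero).1 h1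
  intro i v x hx
  have h4 : (gl D K M Φ (D.pt i (v : G ⧸ M) x)).re = 0 := congrFun h3 _
  rw [h.gl_pt K v hx, det_ofReal (K.pos i x hx), Complex.div_ofReal_re, div_eq_zero_iff] at h4
  exact h4.resolve_right (det_re_pos (K.pos i x hx)).ne'

/-- the local orthogonality -/
def Ort (D : MonD A G) (K : Kah A) (a : D.cov G → Cn q) (r : Rep M H)
    (T : A.ι → G → Cn n → FI n → H) : Prop :=
  ∀ i v (u : Cn n → H), ContDiff ℝ ∞ u → HasCompactSupport u → tsupport u ⊆ (A.e i).target →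
    (∀ z, r.J (u z) = u z) →
    ∫ z, (p2 (K.g i ((A.e i).symm z)) (Sl (Fam.rd D a i v) u z) (T i v z)).re = 0

/-- orthogonality to maps living over one chart -/
theorem orth_one (K : Kah A) (hd : Dat D M a) (hT : Fm D M r T) (ho : Ort D K a r T)
    {w : D.cov G → H} (hw : (D.atl G).Sm w) (hr : ∀ e, r.J (w e) = w e) {χ : Cn q → ℝ}
    (hχ : ContDiff ℝ ∞ χ) (j : A.ι) (v : G) {Kc : Set (Cn n)} (hK : IsCompact Kc)
    (hKt : Kc ⊆ (A.e j).target) (h0 : ∀ z ∈ (A.e j).target, z ∉ Kc → Fam.rd D w j v z = 0) :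
    (∫ z in (A.e j).target, dP D K (fun e => χ (a e))
      (fun i v => Sl (Fam.rd D a i v) (Fam.rd D w i v)) T j v z).re = 0 := by
  set F : Cn n → H := fun z => ((χ (Fam.rd D a j v z) : ℝ) : ℂ) • Fam.rd D w j v z with hF
  set u : Cn n → H := (A.e j).target.indicator F with hu
  have hoff : ∀ z ∉ Kc, u z = 0 := fun z hz => by
    by_cases h1 : z ∈ (A.e j).target
    · rw [hu, indicator_of_mem h1, hF]
      simp only [h0 z h1 hz, smul_zero]
    · exact indicator_of_notMem h1 _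
  have hev : ∀ z ∉ Kc, ∀ᶠ y in 𝓝 z, u y = 0 := fun z hz =>
    mem_of_superset (hK.isClosed.isOpen_compl.mem_nhds hz) hoff
  have hin : ∀ z ∈ (A.e j).target, u =ᶠ[𝓝 z] F := fun z hz =>
    mem_of_superset ((A.e j).open_target.mem_nhds hz) fun y hy => indicator_of_mem hy _
  have hχ' : ContDiff ℝ ∞ fun t => ((χ t : ℝ) : ℂ) := Complex.ofRealCLM.contDiff.comp hχ
  have hFs : ContDiffOn ℝ ∞ F (A.e j).target :=
    (hχ'.comp_contDiffOn (sm_rd (sm_a hd) j v)).smul (sm_rd hw j v)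
  have hus : ContDiff ℝ ∞ u := contDiff_iff_contDiffAt.2 fun z => by
    by_cases h1 : z ∈ Kc
    · exact (hFs.contDiffAt ((A.e j).open_target.mem_nhds (hKt h1))).congr_of_eventuallyEq
        (hin z (hKt h1))
    · exact contDiffAt_const.congr_of_eventuallyEq (hev z h1)
  have hts : tsupport u ⊆ Kc := closure_minimal (fun z hz => by_contra fun h => hz (hoff z h))
    hK.isClosed
  have h1 := ho j v u hus (hK.of_isClosed_subset (isClosed_tsupport _) hts) (hts.trans hKt)
    fun z => by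
      by_cases h1 : z ∈ (A.e j).target
      · rw [hu, indicator_of_mem h1, hF]
        simp only [r.J_real_smul, Fam.rd, hr]
      · rw [hu, indicator_of_notMem h1, map_zero]
  have h2 : ∀ z ∈ (A.e j).target, dP D K (fun e => χ (a e))
      (fun i v => Sl (Fam.rd D a i v) (Fam.rd D w i v)) T j v z =
      p2 (K.g j ((A.e j).symm z)) (Sl (Fam.rd D a j v) u z) (T j v z) := fun z hz => by
    rw [Sl_congr _ (hin z hz), hF, Sl_hor (χ := fun t => ((χ t : ℝ) : ℂ))
      ((hol_rd hd j v).differentiableAt ((A.e j).open_target.mem_nhds hz)) (dif_rd hw j v hz)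
      (hχ'.differentiable (by simp) _), p2_smul_left]
    rfl
  have h3 : ∀ z ∉ Kc, p2 (K.g j ((A.e j).symm z)) (Sl (Fam.rd D a j v) u z) (T j v z) = 0 :=
    fun z hz => by rw [Sl_zero _ (hev z hz), p2_zero_left]
  have h4 : IntegrableOn (fun z => p2 (K.g j ((A.e j).symm z)) (Sl (Fam.rd D a j v) u z) (T j v z))
      Kc := (cont_p2 K j hKt (fun I => (cont_Sl (A.e j).open_target (hol_rd hd j v)
        hus.contDiffOn I).mono hKt) fun I => (hT.cont j v I).mono hKt).integrableOn_compact hK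
  rw [setIntegral_congr_fun (A.e j).open_target.measurableSet h2,
    setIntegral_eq_of_subset_of_forall_sdiff_eq_zero (A.e j).open_target.measurableSet hKt
      fun z hz => h3 z hz.2]
  rw [← setIntegral_eq_integral_of_forall_compl_eq_zero (s := Kc) fun z hz => by
    rw [h3 z hz, Complex.zero_re]] at h1
  exact (integral_re h4).symm.trans h1

/-- **global orthogonality** -/
theorem orthG [CompactSpace X] (K : Kah A) (P : Part A) (hd : Dat D M a) (hT : Fm D M r T)
    (ho : Ort D K a r T) {w : D.cov G → H} (hw : (D.atl G).Sm w) (hr : ∀ e, r.J (w e) = w e)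
    (he : ∀ (m : M) e, w ((m : G) • e) = r.π m (w e)) {χ : Cn q → ℝ} (hχ : ContDiff ℝ ∞ χ) {R : ℝ}
    (hs : ∀ t, R < ‖t‖ → χ t = 0) :
    (IM D K M (dP D K (fun e => χ (a e))
      (fun i v => Sl (Fam.rd D a i v) (Fam.rd D w i v)) T)).re = 0 := by
  have := Fintype.ofFinite A.ι
  obtain ⟨T0, hT0⟩ := hd.exists_fin R
  set W : A.ι → D.cov G → H := fun j e => ((P.ψ j (D.pr e) : ℝ) : ℂ) • w e with hW
  have hWs : ∀ j, (D.atl G).Sm (W j) := fun j p =>
    (Complex.ofRealCLM.contDiff.comp_contDiffOn (P.ψ_sm j p.1)).smul (hw p)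
  have hden : ∀ j, Den D M a R (dP D K (fun e => χ (a e))
      (fun i v => Sl (Fam.rd D a i v) (Fam.rd D (W j) i v)) T) := fun j =>
    den_p2 K (fm_Sl hd (hWs j) fun m => ⟨0, fun e => by
      simp only [hW, D.pr_deck, he, map_smul, add_zero]⟩) hT (φ := fun e => χ (a e))
      (hχ.continuous.comp (sm_cont (sm_a hd))) (fun m hm e => by rw [hd.inv m hm])
      fun e h => hs _ h
  have h1 : IM D K M (dP D K (fun e => χ (a e))
      (fun i v => Sl (Fam.rd D a i v) (Fam.rd D w i v)) T) =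
      IM D K M fun i v z => ∑ j, dP D K (fun e => χ (a e))
        (fun i v => Sl (Fam.rd D a i v) (Fam.rd D (W j) i v)) T i v z :=
    IM_congr K fun i v z hz => by
      have h2 : Fam.rd D w i v = fun y => ∑ j, Fam.rd D (W j) i v y := by
        funext y
        simp only [hW, Fam.rd]
        rw [← Finset.sum_smul, ← Complex.ofReal_sum, sum_psi, Complex.ofReal_one, one_smul]
      simp only [dP]
      rw [← Finset.mul_sum, ← p2_sum_left, ← Sl_sum _ _ fun j _ => dif_rd (hWs j) i v hz, ← h2]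
  rw [h1, IM_sum K hd _ fun j _ => hden j, Complex.re_sum]
  refine Finset.sum_eq_zero fun j _ => ?_
  rw [IM_eq_sum K hd (hden j) j T0 (fun i v x hx hj => ?_)
    fun w hw z hz => (hden j).supp j _ z hz (hT0 j w hw z hz), Complex.re_sum]
  · refine Finset.sum_eq_zero fun y _ => orth_one K hd hT ho (hWs j) (fun e => ?_) hχ j _
      (Kj_cpt P j) (Kj_sub P j) fun z hz h => ?_
    · simp only [hW, r.J_real_smul, hr]
    · simp only [hW, Fam.rd, D.pr_pt, psi_off P j hz h, Complex.ofReal_zero, zero_smul]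
  · rw [dP, Sl_zero, p2_zero_left, mul_zero]
    filter_upwards [psi_ev P hx hj] with z hz
    simp only [hW, Fam.rd, D.pr_pt, hz, Complex.ofReal_zero, zero_smul]

theorem fm_min {H : Type} [NormedAddCommGroup H] [InnerProductSpace ℂ H] {r : Rep M H}
    {b : M → H} {K : Kah A} {S : A.ι → G → X → FI n → H} (hd : Dat D M a)
    (h : IsMin D K M a r b S) : Fm D M r fun i v z => S i v ((A.e i).symm z) :=
  ⟨fun i v I => (h.hol i v I).continuousOn, fun i j v x hx => by
      rw [(A.e i).left_inv hx.1, (A.e j).left_inv hx.2]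
      exact Fam20.min_tr hd.hol h i j v x hx,
    fun m i v _ hz I => Fam20.min_eqv hd h m i v _ ((A.e i).map_target hz) I⟩

theorem tend_sub {Kc : Set (Cn n)} (hK : IsCompact Kc) {u u' : ℕ → Cn n → H}
    (hu : ∀ k, ContinuousOn (u k) Kc) (hu' : ∀ k, ContinuousOn (u' k) Kc)
    (h : Tendsto (fun k => ∫ z in Kc, ‖u k z‖ ^ 2) atTop (𝓝 0))
    (h' : Tendsto (fun k => ∫ z in Kc, ‖u' k z‖ ^ 2) atTop (𝓝 0)) :
    Tendsto (fun k => ∫ z in Kc, ‖u k z - u' k z‖ ^ 2) atTop (𝓝 0) := by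
  have h1 := (h.const_mul 2).add (h'.const_mul 2)
  rw [mul_zero, add_zero] at h1
  refine squeeze_zero (fun k => integral_nonneg fun _ => sq_nonneg _) (fun k => ?_) h1
  have i1 : IntegrableOn (fun z => ‖u k z‖ ^ 2) Kc := ((hu k).norm.pow 2).integrableOn_compact hK
  have i2 : IntegrableOn (fun z => ‖u' k z‖ ^ 2) Kc := ((hu' k).norm.pow 2).integrableOn_compact hK
  rw [← integral_const_mul, ← integral_const_mul, ← integral_add (i1.const_mul 2) (i2.const_mul 2)]
  refine integral_mono ((((hu k).sub (hu' k)).norm.pow 2).integrableOn_compact hK)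
    ((i1.const_mul 2).add (i2.const_mul 2)) fun z => ?_
  have h2 := pow_le_pow_left₀ (norm_nonneg _) (norm_sub_le (u k z) (u' k z)) 2
  change ‖u k z - u' k z‖ ^ 2 ≤ 2 * ‖u k z‖ ^ 2 + 2 * ‖u' k z‖ ^ 2
  nlinarith [sq_nonneg (‖u k z‖ - ‖u' k z‖)]

/-- a form which is orthogonal to approximations of itself vanishes -/
theorem zero_of [CompactSpace X] (P : Part A) (K : Kah A) (hd : Dat D M a) (hT : Fm D M r T)
    {W B : ℕ → A.ι → G → Cn n → FI n → H} (hW : ∀ k, Fm D M r (W k)) (hB : ∀ k, Fm D M r (B k))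
    (he : ∀ k i v, ∀ z ∈ (A.e i).target, T i v z = W k i v z - B k i v z)
    (hl : ∀ i v, ∀ Kc ⊆ (A.e i).target, IsCompact Kc → ∀ I,
      Tendsto (fun k => ∫ z in Kc, ‖B k i v z I‖ ^ 2) atTop (𝓝 0))
    {φ : D.cov G → ℝ} (hφ : Continuous φ) (h0 : ∀ e, 0 ≤ φ e)
    (hi : ∀ m ∈ M, ∀ e, φ (m • e) = φ e) {R : ℝ} (hs : ∀ e, R < ‖a e‖ → φ e = 0)
    (ho : ∀ k, (IM D K M (dP D K φ (W k) T)).re = 0) {i : A.ι} {v : G} {x : X}
    (hx : x ∈ (A.e i).source) (h1 : φ (D.pt i v x) ≠ 0) : T i v (A.e i x) = 0 := by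
  have hB0 := tend_n2 K P hd hB hl hφ hi hs
  have dT := den_p2 K hT hT hφ hi hs
  have hN : ∀ k, (IM D K M (dP D K φ T T)).re ≤ (IM D K M (dP D K φ (B k) (B k))).re := fun k => by
    have dB := den_p2 K (hB k) (hB k) hφ hi hs
    have e1 : IM D K M (dP D K φ T T) =
        IM D K M (dP D K φ (W k) T) - IM D K M (dP D K φ (B k) T) := by
      rw [← IM_sub K hd (den_p2 K (hW k) hT hφ hi hs) (den_p2 K (hB k) hT hφ hi hs)]
      refine IM_congr K fun i v z hz => ?_
      rw [dP, dP, dP, ← mul_sub, ← p2_sub_left, ← he k i v z hz]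
    have e3 := norm_IM_le K hd ((dB.smul (1 / 2 : ℝ)).add (dT.smul (1 / 2 : ℝ)))
      (Φ := dP D K φ (B k) T) fun i v z hz => by
        have hp := gr_pos K i hz
        have h3 : 0 ≤ Fam.rd D φ i v z := h0 _
        have h2 := mul_le_mul_of_nonneg_left (norm_p2_le hp (B k i v z) (T i v z)) h3
        simp only [dP, norm_mul, Complex.norm_real, Complex.add_re, Complex.re_ofReal_mul]
        rw [Real.norm_of_nonneg h3]
        refine h2.trans (le_of_eq ?_)
        simp only [n2, gr]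
        ring
    rw [IM_add K hd (dB.smul _) (dT.smul _), IM_smul, IM_smul, Complex.add_re,
      Complex.re_ofReal_mul, Complex.re_ofReal_mul] at e3
    have e4 := congrArg Complex.re e1
    rw [Complex.sub_re, ho k] at e4
    have e5 := (neg_le_abs _).trans (Complex.abs_re_le_norm (IM D K M (dP D K φ (B k) T)))
    linarith
  have hN0 : (IM D K M (dP D K φ T T)).re ≤ 0 :=
    ge_of_tendsto' ((Complex.continuous_re.tendsto 0).comp hB0) hN
  have h2 := den_eq_zero K hd dT (fun i v z hz => by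
    simp only [dP, Complex.re_ofReal_mul]
    exact mul_nonneg (h0 _) (n2_nonneg (gr_pos K i hz) _)) hN0 i v x hx
  rw [dP, Complex.re_ofReal_mul, rd_pt D _ v hx, (A.e i).left_inv hx, mul_eq_zero] at h2
  exact eq_zero_of_n2 (K.pos i x hx) (h2.resolve_left h1).le

theorem exists_bump (t : Cn q) : ∃ (χ : Cn q → ℝ) (R : ℝ), ContDiff ℝ ∞ χ ∧ (∀ s, 0 ≤ χ s) ∧
    (∀ s, R < ‖s‖ → χ s = 0) ∧ χ t = 1 := by
  let χ : ContDiffBump t := ⟨1, 2, one_pos, one_lt_two⟩
  refine ⟨χ, ‖t‖ + 2, χ.contDiff, χ.nonneg', fun s hs => χ.zero_of_le_dist ?_,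
    χ.one_of_mem_closedBall (Metric.mem_closedBall_self zero_le_one)⟩
  have := norm_sub_norm_le s t
  rw [dist_eq_norm]
  change (2 : ℝ) ≤ _
  linarith

/-- **uniqueness** of the fibrewise minimal form -/
theorem uniq [CompactSpace X] (P : Part A) (K : Kah A) (hd : Dat D M a) {H : Type}
    [NormedAddCommGroup H] [InnerProductSpace ℂ H] {r : Rep M H} {b : M → H}
    {S S' : A.ι → G → X → FI n → H} (h : IsMin D K M a r b S) (h' : IsMin D K M a r b S') :
    ∀ i v, ∀ x ∈ (A.e i).source, S i v x = S' i v x := by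
  intro i v x hx
  obtain ⟨f, hf, hl⟩ := h.lim
  obtain ⟨f', hf', hl'⟩ := h'.lim
  obtain ⟨χ, R, hχ, h0, hs, h1⟩ := exists_bump (a (D.pt i v x))
  have hφ : Continuous fun e => χ (a e) := hχ.continuous.comp (sm_cont (sm_a hd))
  have hi : ∀ m ∈ M, ∀ e, χ (a (m • e)) = χ (a e) := fun m hm e => by rw [hd.inv m hm]
  have hs' : ∀ e, R < ‖a e‖ → χ (a e) = 0 := fun e he => hs _ he
  have m1 := fm_min hd h
  have m2 := fm_min hd h'
  have s1 : ∀ k, Fm D M r fun i v => Sl (Fam.rd D a i v) (Fam.rd D (f k) i v) := fun k =>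
    fm_Sl hd (hf k).sm fun m => ⟨b m, (hf k).eqv m⟩
  have s2 : ∀ k, Fm D M r fun i v => Sl (Fam.rd D a i v) (Fam.rd D (f' k) i v) := fun k =>
    fm_Sl hd (hf' k).sm fun m => ⟨b m, (hf' k).eqv m⟩
  have hw : ∀ k, (D.atl G).Sm fun e => f k e - f' k e := fun k p =>
    ((hf k).sm p).sub ((hf' k).sm p)
  have hwe : ∀ k (m : M) e, f k ((m : G) • e) - f' k ((m : G) • e) = r.π m (f k e - f' k e) :=
    fun k m e => by rw [(hf k).eqv, (hf' k).eqv, map_sub, add_sub_add_right_eq_sub]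
  have hwr : ∀ k e, r.J (f k e - f' k e) = f k e - f' k e := fun k e => by
    rw [map_sub, (hf k).real, (hf' k).real]
  have s3 : ∀ k, Fm D M r fun i v =>
      Sl (Fam.rd D a i v) (Fam.rd D (fun e => f k e - f' k e) i v) := fun k =>
    fm_Sl hd (hw k) fun m => ⟨0, fun e => by rw [hwe, add_zero]⟩
  have h2 := zero_of P K hd (m1.sub m2) s3 (fun k => ((s1 k).sub m1).sub ((s2 k).sub m2))
    (fun k i v z hz => by
      have e2 : Sl (Fam.rd D a i v) (Fam.rd D (fun e => f k e - f' k e) i v) z =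
          Sl (Fam.rd D a i v) (Fam.rd D (f k) i v) z - Sl (Fam.rd D a i v) (Fam.rd D (f' k) i v) z :=
        Sl_sub _ (dif_rd (hf k).sm i v hz) (dif_rd (hf' k).sm i v hz)
      rw [e2]
      abel)
    (fun i v Kc hK hc I => tend_sub hc (fun k => (((s1 k).sub m1).cont i v I).mono hK)
      (fun k => (((s2 k).sub m2).cont i v I).mono hK) (hl i v Kc hK hc I) (hl' i v Kc hK hc I))
    hφ (fun e => h0 _) hi hs' (fun k => by
      have o1 := orthG K P hd m1 h.orth (hw k) (hwr k) (hwe k) hχ hs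
      have o2 := orthG K P hd m2 h'.orth (hw k) (hwr k) (hwe k) hχ hs
      have o3 := congrArg Complex.re
        (IM_sub K hd (den_p2 K (s3 k) m1 hφ hi hs') (den_p2 K (s3 k) m2 hφ hi hs'))
      rw [Complex.sub_re, o1, o2, sub_self] at o3
      rw [← o3]
      congr 1
      exact IM_congr K fun i v z _ => by rw [dP, dP, dP, p2_sub_right, mul_sub])
    hx (by rw [h1]; exact one_ne_zero)
  rw [(A.e i).left_inv hx] at h2
  exact sub_eq_zero.1 h2



end

end Crest.Agent.X261.Fam77
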